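import Vale.Agent.P054.MathlibUsed
import Vale.Agent.P054.H343.G.PatC
attribute [-instance] ProperSMul.toContinuousSMul IsTopologicalTorsor.toContinuousSMul IdemSemiring.toCanonicallyOrderedAdd IdemSemiring.toMulLeftMono IdemSemiring.toMulRightMono AddQuantale.instAddLeftMono AddQuantale.instAddRightMono Quantale.instMulLeftMono Quantale.instMulRightMono FiniteDimensional.rclike_to_real IsScalarTower.complexToReal FiniteDimensional.complexToReal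

set_option linter.all false
set_option autoImplicit false

open Finset

/-! P054: triples of flats with a common subflat of codimension one, counted with the triangle
inequality `#triangles ≤ (#edges)^(3/2)`. -/

namespace Vale.Agent.P054G

open Vale.Agent.P054K

section lin

variable {V : Type} [AddCommGroup V] [Module ℝ V] [FiniteDimensional ℝ V]

/-- a triple of flats of dimension `r` with a common subflat `W` of dimension `r - 1`, spanning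
dimension `r + 2` -/
def Fan (r : ℕ) (W U U1 U3 : Submodule ℝ V) : Prop :=
  Module.finrank ℝ U = r ∧ Module.finrank ℝ U1 = r ∧ Module.finrank ℝ U3 = r ∧
    Module.finrank ℝ W + 1 = r ∧ W ≤ U ∧ W ≤ U1 ∧ W ≤ U3 ∧
    Module.finrank ℝ (U ⊔ U1 ⊔ U3 : Submodule ℝ V) = r + 2

theorem fan_sup {r : ℕ} {W U U1 U3 : Submodule ℝ V} (h : Fan r W U U1 U3) :
    Module.finrank ℝ (U ⊔ U1 : Submodule ℝ V) = r + 1 := by
  obtain ⟨h1, h2, h3, h4, h5, h6, h7, h8⟩ := h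
  have e1 := Submodule.finrank_sup_add_finrank_inf_eq U U1
  have e2 := Submodule.finrank_mono (le_inf h5 h6)
  have e3 := Submodule.finrank_sup_add_finrank_inf_eq (U ⊔ U1) U3
  have e4 := Submodule.finrank_mono (le_inf (h5.trans le_sup_left : W ≤ U ⊔ U1) h7)
  omega

theorem Fan.swap12 {r : ℕ} {W U U1 U3 : Submodule ℝ V} (h : Fan r W U U1 U3) :
    Fan r W U1 U U3 := by
  obtain ⟨h1, h2, h3, h4, h5, h6, h7, h8⟩ := h
  refine ⟨h2, h1, h3, h4, h6, h5, h7, ?_⟩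
  rw [sup_comm U1 U]; exact h8

theorem Fan.swap23 {r : ℕ} {W U U1 U3 : Submodule ℝ V} (h : Fan r W U U1 U3) :
    Fan r W U U3 U1 := by
  obtain ⟨h1, h2, h3, h4, h5, h6, h7, h8⟩ := h
  refine ⟨h1, h3, h2, h4, h5, h7, h6, ?_⟩
  rw [sup_assoc, sup_comm U3 U1, ← sup_assoc]; exact h8

theorem fan_sup_span {r : ℕ} {W U U1 U3 : Submodule ℝ V} (h : Fan r W U U1 U3) {x : V}
    (hx : x ∈ U1) (hxW : x ∉ W) : U ⊔ Submodule.span ℝ {x} = U ⊔ U1 := by
  have h0 := fan_sup h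
  obtain ⟨h1, h2, h3, h4, h5, h6, h7, h8⟩ := h
  have hxU : x ∉ U := by
    intro hc
    have e1 : W ⊔ Submodule.span ℝ {x} ≤ U ⊓ U1 := by
      refine sup_le (le_inf h5 h6) ?_
      rw [Submodule.span_singleton_le_iff_mem]
      exact ⟨hc, hx⟩
    have e2 : W < W ⊔ Submodule.span ℝ {x} := by
      refine lt_of_le_of_ne le_sup_left ?_
      intro he
      apply hxW
      rw [he]
      exact Submodule.mem_sup_right (Submodule.mem_span_singleton_self x)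
    have e3 := Submodule.finrank_lt_finrank_of_lt e2
    have e4 := Submodule.finrank_mono e1
    have e5 := Submodule.finrank_sup_add_finrank_inf_eq U U1
    omega
  apply Submodule.eq_of_le_of_finrank_le
  · refine sup_le le_sup_left ?_
    rw [Submodule.span_singleton_le_iff_mem]
    exact Submodule.mem_sup_right hx
  · have e2 : U < U ⊔ Submodule.span ℝ {x} := by
      refine lt_of_le_of_ne le_sup_left ?_
      intro he
      apply hxU
      rw [he]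
      exact Submodule.mem_sup_right (Submodule.mem_span_singleton_self x)
    have e3 := Submodule.finrank_lt_finrank_of_lt e2
    omega

theorem fan_inf {r : ℕ} {W U U1 U3 : Submodule ℝ V} (h : Fan r W U U1 U3) :
    U = (U ⊔ U1) ⊓ (U ⊔ U3) := by
  have h0 := fan_sup h
  have h0' := fan_sup h.swap23
  obtain ⟨h1, h2, h3, h4, h5, h6, h7, h8⟩ := h
  apply Submodule.eq_of_le_of_finrank_le (le_inf le_sup_left le_sup_left)
  have e5 := Submodule.finrank_sup_add_finrank_inf_eq (U ⊔ U1) (U ⊔ U3)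
  have e6 : (U ⊔ U1) ⊔ (U ⊔ U3) = U ⊔ U1 ⊔ U3 := by
    apply le_antisymm
    · exact sup_le le_sup_left (sup_le (le_sup_left.trans le_sup_left) le_sup_right)
    · exact sup_le le_sup_left (le_sup_right.trans le_sup_right)
  rw [e6] at e5
  omega

/-- **the triangle trick** -/
theorem tri_count (r : ℕ) (S : Finset (Submodule ℝ V × Submodule ℝ V × Submodule ℝ V))
    (D1 D2 D3 : Finset (Submodule ℝ V)) (x1 x2 x3 : V)
    (hS : ∀ T ∈ S, T.1 ∈ D1 ∧ T.2.1 ∈ D2 ∧ T.2.2 ∈ D3 ∧ ∃ W, Fan r W T.1 T.2.1 T.2.2 ∧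
      x1 ∈ T.1 ∧ x1 ∉ W ∧ x2 ∈ T.2.1 ∧ x2 ∉ W ∧ x3 ∈ T.2.2 ∧ x3 ∉ W) :
    S.card ^ 2 ≤ D1.card * (D2.card * D3.card) := by
  classical
  -- the identities
  have key : ∀ T ∈ S, ∀ T' ∈ S, T.1 = T'.1 →
      (T, T') = (fun q : Submodule ℝ V × Submodule ℝ V =>
        (((q.1 ⊔ Submodule.span ℝ {x1}) ⊓ (q.2 ⊔ Submodule.span ℝ {x1}), q.1,
          (q.2 ⊔ Submodule.span ℝ {x1}) ⊓ (q.1 ⊔ Submodule.span ℝ {x3})),
         ((q.1 ⊔ Submodule.span ℝ {x1}) ⊓ (q.2 ⊔ Submodule.span ℝ {x1}),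
          (q.1 ⊔ Submodule.span ℝ {x1}) ⊓ (q.2 ⊔ Submodule.span ℝ {x2}), q.2)))
        (T.2.1, T'.2.2) := by
    rintro ⟨U, U1, U3⟩ hT ⟨U', U1', U3'⟩ hT' he
    obtain ⟨_, _, _, W, hF, a1, a2, b1, b2, c1, c2⟩ := hS _ hT
    obtain ⟨_, _, _, W', hF', a1', a2', b1', b2', c1', c2'⟩ := hS _ hT'
    simp only at *
    subst he
    -- G1
    have g1 : U1 ⊔ Submodule.span ℝ {x1} = U ⊔ U1 := by
      rw [fan_sup_span hF.swap12 a1 a2, sup_comm]
    have g1b : U ⊔ Submodule.span ℝ {x2} = U ⊔ U1 := fan_sup_span hF b1 b2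
    have g1' : U ⊔ Submodule.span ℝ {x2} = U ⊔ U1' := fan_sup_span hF' b1' b2'
    -- G2
    have g2 : U ⊔ Submodule.span ℝ {x3} = U ⊔ U3 := fan_sup_span hF.swap23 c1 c2
    have g2' : U ⊔ Submodule.span ℝ {x3} = U ⊔ U3' := fan_sup_span hF'.swap23 c1' c2'
    have g2'' : U3' ⊔ Submodule.span ℝ {x1} = U ⊔ U3' := by
      rw [fan_sup_span hF'.swap23.swap12 a1' a2', sup_comm]
    -- G3
    have g3 : U1 ⊔ Submodule.span ℝ {x3} = U1 ⊔ U3 := fan_sup_span hF.swap12.swap23 c1 c2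
    have g3' : U3' ⊔ Submodule.span ℝ {x2} = U3' ⊔ U1' :=
      fan_sup_span hF'.swap23.swap12.swap23 b1' b2'
    have eU : U = (U ⊔ U1) ⊓ (U ⊔ U3) := fan_inf hF
    have eU3 : U3 = (U3 ⊔ U) ⊓ (U3 ⊔ U1) := fan_inf hF.swap23.swap12
    have eU1' : U1' = (U1' ⊔ U) ⊓ (U1' ⊔ U3') := fan_inf hF'.swap12
    have h23 : U ⊔ U3 = U ⊔ U3' := by rw [← g2, g2']
    have h12 : U ⊔ U1 = U ⊔ U1' := by rw [← g1b, g1']
    simp only [Prod.mk.injEq]
    refine ⟨⟨?_, trivial, ?_⟩, ?_, ?_, trivial⟩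
    · rw [g1, g2'', ← h23]; exact eU
    · rw [g2'', g3, ← h23, sup_comm U U3, sup_comm U1 U3]; exact eU3
    · rw [g1, g2'', ← h23]; exact eU
    · rw [g1, g3', h12, sup_comm U U1', sup_comm U3' U1']; exact eU1'
  -- pairs with the same first flat
  have hpairs : ((S ×ˢ S).filter (fun q => q.1.1 = q.2.1)).card ≤ D2.card * D3.card := by
    rw [← card_product]
    calc _ ≤ ((D2 ×ˢ D3).image (fun q : Submodule ℝ V × Submodule ℝ V =>
        (((q.1 ⊔ Submodule.span ℝ {x1}) ⊓ (q.2 ⊔ Submodule.span ℝ {x1}), q.1,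
          (q.2 ⊔ Submodule.span ℝ {x1}) ⊓ (q.1 ⊔ Submodule.span ℝ {x3})),
         ((q.1 ⊔ Submodule.span ℝ {x1}) ⊓ (q.2 ⊔ Submodule.span ℝ {x1}),
          (q.1 ⊔ Submodule.span ℝ {x1}) ⊓ (q.2 ⊔ Submodule.span ℝ {x2}), q.2)))).card := by
          apply card_le_card
          rintro ⟨T, T'⟩ hq
          rw [mem_filter, mem_product] at hq
          obtain ⟨⟨hT, hT'⟩, he⟩ := hq
          simp only at hT hT' he
          rw [mem_image]
          refine ⟨(T.2.1, T'.2.2), ?_, (key T hT T' hT' he).symm⟩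
          rw [mem_product]
          exact ⟨(hS T hT).2.1, (hS T' hT').2.2.1⟩
      _ ≤ _ := card_image_le
  have h1 : S.card = ∑ U ∈ D1, (S.filter (fun T => T.1 = U)).card :=
    card_eq_sum_card_fiberwise (fun T hT => (hS T hT).1)
  have h2 : ((S ×ˢ S).filter (fun q => q.1.1 = q.2.1)).card =
      ∑ U ∈ D1, (S.filter (fun T => T.1 = U)).card ^ 2 := by
    rw [card_eq_sum_card_fiberwise (f := fun q => q.1.1) (t := D1)]
    · apply sum_congr rfl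
      intro U _
      rw [sq, ← card_product]
      congr 1
      ext ⟨T, T'⟩
      simp only [mem_filter, mem_product]
      constructor
      · rintro ⟨⟨⟨a, b⟩, c⟩, e⟩
        exact ⟨⟨a, e⟩, b, c.symm.trans e⟩
      · rintro ⟨⟨a, e⟩, b, c⟩
        exact ⟨⟨⟨a, b⟩, e.trans c.symm⟩, e⟩
    · intro q hq
      rw [mem_coe, mem_filter, mem_product] at hq
      exact (hS _ hq.1.1).1
  calc S.card ^ 2 = (∑ U ∈ D1, (S.filter (fun T => T.1 = U)).card) ^ 2 := by rw [← h1]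
    _ ≤ D1.card * ∑ U ∈ D1, (S.filter (fun T => T.1 = U)).card ^ 2 := sq_sum_le_card_mul_sum_sq
    _ = D1.card * ((S ×ˢ S).filter (fun q => q.1.1 = q.2.1)).card := by rw [h2]
    _ ≤ _ := Nat.mul_le_mul_left _ hpairs

end lin

/-- the number of points of `X` on `U` but not on `W` -/
noncomputable def off {d : ℕ} (X : Finset (EuclideanSpace ℝ (Fin d)))
    (U W : Submodule ℝ (EuclideanSpace ℝ (Fin d) × ℝ)) : ℕ :=
  open scoped Classical in (X.filter (fun a => lf a ∈ U ∧ lf a ∉ W)).card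

theorem off_le_mass {d : ℕ} (X : Finset (EuclideanSpace ℝ (Fin d)))
    (U W : Submodule ℝ (EuclideanSpace ℝ (Fin d) × ℝ)) : (off X U W : ℝ) ≤ mass X lf U := by
  classical
  unfold off mass
  norm_cast
  apply card_le_card
  intro a ha
  rw [mem_filter] at ha ⊢
  exact ⟨ha.1, ha.2.1⟩

theorem robA_off {d : ℕ} {X : Finset (EuclideanSpace ℝ (Fin d))} {θ : ℝ} {r : ℕ}
    {U W : Submodule ℝ (EuclideanSpace ℝ (Fin d) × ℝ)} (hU : RobA X θ r U) (hW : W < U) :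
    θ / 2 ≤ (off X U W : ℝ) := by
  classical
  obtain ⟨h1, A, hA, h2, h3, h4⟩ := hU
  have h5 := h4 W hW
  have h6 : ((A.filter (fun a => lf a ∈ W)).card : ℝ) + ((A.filter (fun a => ¬ lf a ∈ W)).card : ℝ)
      = A.card := by
    exact_mod_cast card_filter_add_card_filter_not (s := A) (fun a => lf a ∈ W)
  have h7 : mass A lf W = ((A.filter (fun a => lf a ∈ W)).card : ℝ) := rfl
  have h8 : ((A.filter (fun a => ¬ lf a ∈ W)).card : ℝ) ≤ (off X U W : ℝ) := by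
    unfold off
    norm_cast
    apply card_le_card
    intro a ha
    rw [mem_filter] at ha ⊢
    exact ⟨hA ha.1, h2 a ha.1, ha.2⟩
  rw [h7] at h5
  linarith

open scoped Classical in
/-- **weighted number of triples** -/
theorem tri_weight {d : ℕ} (X : Finset (EuclideanSpace ℝ (Fin d))) (θ : ℝ) (hθ : 0 < θ) (r : ℕ)
    (N : Finset (Submodule ℝ (EuclideanSpace ℝ (Fin d) × ℝ))) (hN : ∀ U ∈ N, RobA X θ r U)
    (S : Finset (Submodule ℝ (EuclideanSpace ℝ (Fin d) × ℝ) ×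
      Submodule ℝ (EuclideanSpace ℝ (Fin d) × ℝ) × Submodule ℝ (EuclideanSpace ℝ (Fin d) × ℝ)))
    (hS : ∀ T ∈ S, T.1 ∈ N ∧ T.2.1 ∈ N ∧ T.2.2 ∈ N ∧
      Fan r (T.1 ⊓ T.2.1 ⊓ T.2.2) T.1 T.2.1 T.2.2) :
    ((θ / 2) ^ 2 * ∑ T ∈ S, (off X T.1 (T.1 ⊓ T.2.1 ⊓ T.2.2) : ℝ)) ^ 2 ≤
      (X.card : ℝ) ^ 3 * (∑ U ∈ N, mass X lf U) ^ 3 := by
  obtain ⟨D, hD⟩ : ∃ D : EuclideanSpace ℝ (Fin d) → Finset (Submodule ℝ (EuclideanSpace ℝ (Fin d) × ℝ)),
      D = fun a => N.filter (fun U => lf a ∈ U) := ⟨_, rfl⟩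
  obtain ⟨F, hF⟩ : ∃ F : EuclideanSpace ℝ (Fin d) × EuclideanSpace ℝ (Fin d) ×
      EuclideanSpace ℝ (Fin d) → Finset (Submodule ℝ (EuclideanSpace ℝ (Fin d) × ℝ) ×
      Submodule ℝ (EuclideanSpace ℝ (Fin d) × ℝ) × Submodule ℝ (EuclideanSpace ℝ (Fin d) × ℝ)),
      F = fun q => S.filter (fun T => (lf q.1 ∈ T.1 ∧ lf q.1 ∉ T.1 ⊓ T.2.1 ⊓ T.2.2) ∧
        (lf q.2.1 ∈ T.2.1 ∧ lf q.2.1 ∉ T.1 ⊓ T.2.1 ⊓ T.2.2) ∧
        (lf q.2.2 ∈ T.2.2 ∧ lf q.2.2 ∉ T.1 ⊓ T.2.1 ⊓ T.2.2)) := ⟨_, rfl⟩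
  -- the triples over three points
  have hF2 : ∀ q, (F q).card ^ 2 ≤ (D q.1).card * ((D q.2.1).card * (D q.2.2).card) := by
    intro q
    apply tri_count r (F q) (D q.1) (D q.2.1) (D q.2.2) (lf q.1) (lf q.2.1) (lf q.2.2)
    intro T hT
    rw [hF] at hT
    simp only [mem_filter] at hT
    obtain ⟨hTS, ⟨a1, a2⟩, ⟨b1, b2⟩, c1, c2⟩ := hT
    obtain ⟨n1, n2, n3, hfan⟩ := hS T hTS
    refine ⟨?_, ?_, ?_, _, hfan, a1, a2, b1, b2, c1, c2⟩
    · rw [hD]; exact mem_filter.mpr ⟨n1, a1⟩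
    · rw [hD]; exact mem_filter.mpr ⟨n2, b1⟩
    · rw [hD]; exact mem_filter.mpr ⟨n3, c1⟩
  -- the sum of the degrees
  have hDsum : (∑ a ∈ X, ((D a).card : ℝ)) = ∑ U ∈ N, mass X lf U := by
    have e1 : ∀ a ∈ X, ((D a).card : ℝ) = ∑ U ∈ N, if lf a ∈ U then (1:ℝ) else 0 := by
      intro a _
      rw [hD]
      simp only
      rw [card_filter]
      push_cast
      rfl
    rw [sum_congr rfl e1, sum_comm]
    apply sum_congr rfl
    intro U _
    unfold mass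
    rw [card_filter]
    push_cast
    rfl
  -- lower bound
  have hlow : (θ / 2) ^ 2 * ∑ T ∈ S, (off X T.1 (T.1 ⊓ T.2.1 ⊓ T.2.2) : ℝ) ≤
      ∑ q ∈ X ×ˢ X ×ˢ X, ((F q).card : ℝ) := by
    have e1 : ∑ q ∈ X ×ˢ X ×ˢ X, ((F q).card : ℝ) = ∑ T ∈ S,
        ((off X T.1 (T.1 ⊓ T.2.1 ⊓ T.2.2) : ℝ) * ((off X T.2.1 (T.1 ⊓ T.2.1 ⊓ T.2.2) : ℝ) *
          (off X T.2.2 (T.1 ⊓ T.2.1 ⊓ T.2.2) : ℝ))) := by
      have e2 : ∀ q ∈ X ×ˢ X ×ˢ X, ((F q).card : ℝ) = ∑ T ∈ S,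
          if ((lf q.1 ∈ T.1 ∧ lf q.1 ∉ T.1 ⊓ T.2.1 ⊓ T.2.2) ∧
            (lf q.2.1 ∈ T.2.1 ∧ lf q.2.1 ∉ T.1 ⊓ T.2.1 ⊓ T.2.2) ∧
            (lf q.2.2 ∈ T.2.2 ∧ lf q.2.2 ∉ T.1 ⊓ T.2.1 ⊓ T.2.2)) then (1:ℝ) else 0 := by
        intro q _
        rw [hF]
        simp only
        rw [card_filter]
        push_cast
        rfl
      rw [sum_congr rfl e2, sum_comm]
      apply sum_congr rfl
      intro T _
      unfold off
      rw [← sum_filter, sum_const, nsmul_eq_mul, mul_one]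
      norm_cast
      rw [← card_product, ← card_product]
      congr 1
      ext ⟨a, b, c⟩
      simp only [mem_filter, mem_product]
      tauto
    rw [e1, mul_sum]
    apply sum_le_sum
    intro T hT
    obtain ⟨n1, n2, n3, hfan⟩ := hS T hT
    obtain ⟨f1, f2, f3, f4, f5, f6, f7, f8⟩ := hfan
    have hlt : ∀ U : Submodule ℝ (EuclideanSpace ℝ (Fin d) × ℝ), Module.finrank ℝ U = r →
        T.1 ⊓ T.2.1 ⊓ T.2.2 ≤ U → T.1 ⊓ T.2.1 ⊓ T.2.2 < U := by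
      intro U hU hle
      refine lt_of_le_of_ne hle ?_
      intro hc
      rw [hc] at f4
      omega
    have o2 := robA_off (hN _ n2) (hlt _ f2 f6)
    have o3 := robA_off (hN _ n3) (hlt _ f3 f7)
    have o1 : (0:ℝ) ≤ (off X T.1 (T.1 ⊓ T.2.1 ⊓ T.2.2) : ℝ) := Nat.cast_nonneg _
    rw [mul_comm ((θ / 2) ^ 2)]
    apply mul_le_mul_of_nonneg_left _ o1
    rw [sq]
    exact mul_le_mul o2 o3 (by positivity) (by linarith)
  -- Cauchy-Schwarz
  have hcs : (∑ q ∈ X ×ˢ X ×ˢ X, ((F q).card : ℝ)) ^ 2 ≤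
      ((X ×ˢ X ×ˢ X).card : ℝ) * ∑ q ∈ X ×ˢ X ×ˢ X, ((F q).card : ℝ) ^ 2 :=
    sq_sum_le_card_mul_sum_sq
  have hcard : ((X ×ˢ X ×ˢ X).card : ℝ) = (X.card : ℝ) ^ 3 := by
    rw [card_product, card_product]
    push_cast
    ring
  have hsq : ∑ q ∈ X ×ˢ X ×ˢ X, ((F q).card : ℝ) ^ 2 ≤ (∑ U ∈ N, mass X lf U) ^ 3 := by
    calc ∑ q ∈ X ×ˢ X ×ˢ X, ((F q).card : ℝ) ^ 2 ≤
          ∑ q ∈ X ×ˢ X ×ˢ X, ((D q.1).card : ℝ) * (((D q.2.1).card : ℝ) * ((D q.2.2).card : ℝ)) := by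
          apply sum_le_sum
          intro q _
          exact_mod_cast hF2 q
      _ = (∑ a ∈ X, ((D a).card : ℝ)) * ((∑ a ∈ X, ((D a).card : ℝ)) *
            (∑ a ∈ X, ((D a).card : ℝ))) := by
          rw [sum_product]
          simp only
          rw [sum_mul_sum, sum_mul]
          apply sum_congr rfl
          intro a _
          rw [sum_product, mul_sum]
          apply sum_congr rfl
          intro b _
          rw [mul_sum]
      _ = _ := by rw [hDsum]; ring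
  calc ((θ / 2) ^ 2 * ∑ T ∈ S, (off X T.1 (T.1 ⊓ T.2.1 ⊓ T.2.2) : ℝ)) ^ 2 ≤
        (∑ q ∈ X ×ˢ X ×ˢ X, ((F q).card : ℝ)) ^ 2 := by
        apply pow_le_pow_left₀ _ hlow
        positivity
    _ ≤ _ := hcs
    _ ≤ (X.card : ℝ) ^ 3 * (∑ U ∈ N, mass X lf U) ^ 3 := by
        rw [hcard]
        exact mul_le_mul_of_nonneg_left hsq (by positivity)

end Vale.Agent.P054G
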