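import Vale.Agent.P054.MathlibUsed
import Vale.Agent.P054.H428.TriCnt
attribute [-instance] ProperSMul.toContinuousSMul IsTopologicalTorsor.toContinuousSMul IdemSemiring.toCanonicallyOrderedAdd IdemSemiring.toMulLeftMono IdemSemiring.toMulRightMono AddQuantale.instAddLeftMono AddQuantale.instAddRightMono Quantale.instMulLeftMono Quantale.instMulRightMono FiniteDimensional.rclike_to_real IsScalarTower.complexToReal FiniteDimensional.complexToReal

set_option linter.all false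
set_option autoImplicit false

open Finset

/-! P054: two adjacent flats that contain a direction of the rotation plane determine the axis. -/

namespace Vale.Agent.P054G

open Vale.Agent.P054K

/-- the plane of the two mirrors, as a space of directions -/
def pl {d : ℕ} (w1 w3 : EuclideanSpace ℝ (Fin d) × ℝ) :
    Submodule ℝ (EuclideanSpace ℝ (Fin d) × ℝ) :=
  (Submodule.span ℝ {w1.1, w3.1}).prod ⊥

theorem mem_pl {d : ℕ} (w1 w3 y : EuclideanSpace ℝ (Fin d) × ℝ) :
    y ∈ pl w1 w3 ↔ y.1 ∈ Submodule.span ℝ {w1.1, w3.1} ∧ y.2 = 0 := by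
  unfold pl
  rw [Submodule.mem_prod, Submodule.mem_bot]

theorem mem_hyp' {d : ℕ} (p : EuclideanSpace ℝ (Fin d)) (w : EuclideanSpace ℝ (Fin d) × ℝ) :
    w ∈ hyp p ↔ 2 * inner ℝ w.1 p = w.2 := by
  obtain ⟨u, c⟩ := w
  rw [mem_hyp, real_inner_comm]

/-- the axis through `p` is determined by the pair of flats -/
def AxA {d : ℕ} (p : EuclideanSpace ℝ (Fin d))
    (U U' : Submodule ℝ (EuclideanSpace ℝ (Fin d) × ℝ)) : Prop :=
  ∃ w1 w3 : EuclideanSpace ℝ (Fin d) × ℝ, w1 ∈ hyp p ∧ w3 ∈ hyp p ∧ w1 ≠ 0 ∧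
    w3 ∉ Submodule.span ℝ {w1} ∧ U ⊓ U' ≤ fx w1 ⊓ fx w3 ∧ (∃ y ∈ U ⊓ U', y.2 = 1) ∧
    U ⊔ U' = (U ⊓ U') ⊔ pl w1 w3

theorem inner_span_zero {d : ℕ} (a b z v : EuclideanSpace ℝ (Fin d))
    (hz : z ∈ Submodule.span ℝ {a, b}) (ha : inner ℝ a v = 0) (hb : inner ℝ b v = 0) :
    inner ℝ z v = 0 := by
  rw [Submodule.mem_span_pair] at hz
  obtain ⟨α, β, rfl⟩ := hz
  rw [inner_add_left, inner_smul_left, inner_smul_left, ha, hb]
  simp

theorem axA_mem {d : ℕ} (p p' : EuclideanSpace ℝ (Fin d))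
    (U U' : Submodule ℝ (EuclideanSpace ℝ (Fin d) × ℝ))
    (w1 w3 w1' w3' w : EuclideanSpace ℝ (Fin d) × ℝ)
    (hW : U ⊓ U' ≤ fx w1 ⊓ fx w3) (hsup : U ⊔ U' = (U ⊓ U') ⊔ pl w1 w3)
    (h1' : w1' ∈ hyp p') (h3' : w3' ∈ hyp p')
    (hW' : U ⊓ U' ≤ fx w1' ⊓ fx w3') (hy : ∃ y ∈ U ⊓ U', y.2 = 1)
    (hsup' : U ⊔ U' = (U ⊓ U') ⊔ pl w1' w3') (hw : w = w1 ∨ w = w3) : w ∈ hyp p' := by
  have hwpl : (w.1, (0:ℝ)) ∈ pl w1 w3 := by
    rw [mem_pl]
    refine ⟨?_, rfl⟩
    apply Submodule.subset_span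
    rcases hw with rfl | rfl
    · exact Set.mem_insert _ _
    · exact Set.mem_insert_of_mem _ rfl
  have hwfx : ∀ y ∈ U ⊓ U', 2 * inner ℝ w.1 y.1 = w.2 * y.2 := by
    intro y hy
    have h := hW hy
    rw [← mem_fx]
    rcases hw with rfl | rfl
    · exact h.1
    · exact h.2
  have hmem : (w.1, (0:ℝ)) ∈ (U ⊓ U') ⊔ pl w1' w3' := by
    rw [← hsup', hsup]
    exact Submodule.mem_sup_right hwpl
  obtain ⟨y, hyW, z, hz, hyz⟩ := Submodule.mem_sup.mp hmem
  rw [mem_pl] at hz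
  have e1 : y.1 + z.1 = w.1 := congrArg Prod.fst hyz
  have e2 : y.2 + z.2 = 0 := congrArg Prod.snd hyz
  have y20 : y.2 = 0 := by rw [hz.2, add_zero] at e2; exact e2
  have ym1 : inner ℝ w1'.1 y.1 = 0 := by
    have h := (mem_fx _ _).mp (hW' hyW).1
    rw [y20, mul_zero] at h
    linarith
  have ym3 : inner ℝ w3'.1 y.1 = 0 := by
    have h := (mem_fx _ _).mp (hW' hyW).2
    rw [y20, mul_zero] at h
    linarith
  have yw : inner ℝ w.1 y.1 = 0 := by
    have h := hwfx y hyW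
    rw [y20, mul_zero] at h
    linarith
  have yz : inner ℝ z.1 y.1 = 0 := inner_span_zero _ _ _ _ hz.1 ym1 ym3
  have yy : inner ℝ y.1 y.1 = (0:ℝ) := by
    have : y.1 = w.1 - z.1 := by rw [← e1]; abel
    calc inner ℝ y.1 y.1 = inner ℝ (w.1 - z.1) y.1 := by rw [← this]
      _ = 0 := by rw [inner_sub_left, yw, yz, sub_zero]
  have y0 : y.1 = 0 := inner_self_eq_zero.mp yy
  have hwspan : w.1 ∈ Submodule.span ℝ {w1'.1, w3'.1} := by
    rw [← e1, y0, zero_add]
    exact hz.1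
  obtain ⟨y0', hy0', hy02⟩ := hy
  have q1 : inner ℝ w1'.1 (p' - y0'.1) = 0 := by
    have h := (mem_fx _ _).mp (hW' hy0').1
    rw [hy02, mul_one] at h
    have h2 := (mem_hyp' _ _).mp h1'
    rw [inner_sub_right]
    linarith
  have q3 : inner ℝ w3'.1 (p' - y0'.1) = 0 := by
    have h := (mem_fx _ _).mp (hW' hy0').2
    rw [hy02, mul_one] at h
    have h2 := (mem_hyp' _ _).mp h3'
    rw [inner_sub_right]
    linarith
  have q : inner ℝ w.1 (p' - y0'.1) = 0 := inner_span_zero _ _ _ _ hwspan q1 q3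
  rw [mem_hyp']
  have h := hwfx y0' hy0'
  rw [hy02, mul_one] at h
  rw [inner_sub_right] at q
  linarith

open scoped Classical in
/-- centres with the axis determined by the pair -/
theorem axA_card {d : ℕ} (P : Finset (EuclideanSpace ℝ (Fin d))) (M2 : ℝ) (hM2 : 0 ≤ M2)
    (hg2 : ∀ D : Submodule ℝ (EuclideanSpace ℝ (Fin d) × ℝ), Module.finrank ℝ D = 2 →
      ((P.filter (fun p => D ≤ hyp p)).card : ℝ) ≤ M2)
    (U U' : Submodule ℝ (EuclideanSpace ℝ (Fin d) × ℝ)) :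
    ((P.filter (fun p => AxA p U U')).card : ℝ) ≤ M2 := by
  rcases (P.filter (fun p => AxA p U U')).eq_empty_or_nonempty with h0 | ⟨p0, hp0⟩
  · rw [h0, card_empty]
    simpa using hM2
  · rw [mem_filter] at hp0
    obtain ⟨_, w1, w3, h1, h3, n1, hs, hW, hy, hsup⟩ := hp0
    refine le_trans ?_ (card_of_finrank P M2 hg2
      (Submodule.span ℝ {w1} ⊔ Submodule.span ℝ {w3}) w1 w3
      (Submodule.mem_sup_left (Submodule.mem_span_singleton_self w1))
      (Submodule.mem_sup_right (Submodule.mem_span_singleton_self w3)) n1 hs)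
    norm_cast
    apply card_le_card
    intro p hp
    rw [mem_filter] at hp ⊢
    obtain ⟨hpP, w1', w3', h1', h3', n1', hs', hW', hy', hsup'⟩ := hp
    refine ⟨hpP, sup_le ?_ ?_⟩
    · rw [Submodule.span_singleton_le_iff_mem]
      exact axA_mem p0 p U U' w1 w3 w1' w3' w1 hW hsup h1' h3' hW' hy' hsup' (Or.inl rfl)
    · rw [Submodule.span_singleton_le_iff_mem]
      exact axA_mem p0 p U U' w1 w3 w1' w3' w3 hW hsup h1' h3' hW' hy' hsup' (Or.inr rfl)

theorem rfL_fixed {d : ℕ} (w : EuclideanSpace ℝ (Fin d) × ℝ)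
    (W : Submodule ℝ (EuclideanSpace ℝ (Fin d) × ℝ)) (hW : W ≤ fx w) : W.map (rfL w) = W := by
  ext y
  rw [Submodule.mem_map]
  constructor
  · rintro ⟨z, hz, rfl⟩
    rw [fx_fixed w z (hW hz)]
    exact hz
  · intro hy
    exact ⟨y, hy, fx_fixed w y (hW hy)⟩

theorem rfL_pl {d : ℕ} (w1 w3 w : EuclideanSpace ℝ (Fin d) × ℝ) (hw : w = w1 ∨ w = w3) :
    (pl w1 w3).map (rfL w) ≤ pl w1 w3 := by
  have hwm : w.1 ∈ Submodule.span ℝ {w1.1, w3.1} := by
    apply Submodule.subset_span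
    rcases hw with rfl | rfl
    · exact Set.mem_insert _ _
    · exact Set.mem_insert_of_mem _ rfl
  rintro y ⟨z, hz, rfl⟩
  rw [SetLike.mem_coe, mem_pl] at hz
  rw [mem_pl]
  unfold rfL
  simp only [LinearMap.coe_mk, AddHom.coe_mk]
  exact ⟨Submodule.sub_mem _ hz.1 (Submodule.smul_mem _ _ hwm), hz.2⟩

theorem finrank_pl {d : ℕ} (p : EuclideanSpace ℝ (Fin d)) (w1 w3 : EuclideanSpace ℝ (Fin d) × ℝ)
    (h1 : w1 ∈ hyp p) (h3 : w3 ∈ hyp p) (n1 : w1 ≠ 0) (hs : w3 ∉ Submodule.span ℝ {w1}) :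
    Module.finrank ℝ (pl w1 w3) = 2 := by
  rw [mem_hyp'] at h1 h3
  have hli : LinearIndependent ℝ ![((w1.1, (0:ℝ)) : EuclideanSpace ℝ (Fin d) × ℝ), (w3.1, (0:ℝ))] := by
    rw [LinearIndependent.pair_iff]
    intro α β h
    rw [Prod.smul_mk, Prod.smul_mk, Prod.mk_add_mk, Prod.mk_eq_zero] at h
    have e1 := h.1
    have e2 : α * w1.2 + β * w3.2 = 0 := by
      rw [← h1, ← h3]
      have h4 : inner ℝ (α • w1.1 + β • w3.1) p = (0:ℝ) := by rw [e1, inner_zero_left]
      rw [inner_add_left, inner_smul_left, inner_smul_left] at h4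
      simp only [RCLike.conj_to_real] at h4
      linarith
    have e3 : α • w1 + β • w3 = 0 := by
      apply Prod.ext
      · exact e1
      · simpa using e2
    by_cases hβ : β = 0
    · rw [hβ, zero_smul, add_zero] at e3
      rcases smul_eq_zero.mp e3 with h5 | h5
      · exact ⟨h5, hβ⟩
      · exact absurd h5 n1
    · exfalso
      apply hs
      rw [Submodule.mem_span_singleton]
      refine ⟨-(β⁻¹ * α), ?_⟩
      have h6 : w3 = -(β⁻¹ • (α • w1)) := by
        have h7 : β • w3 = -(α • w1) := by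
          rw [eq_neg_iff_add_eq_zero, add_comm]; exact e3
        calc w3 = β⁻¹ • (β • w3) := by rw [smul_smul, inv_mul_cancel₀ hβ, one_smul]
          _ = _ := by rw [h7, smul_neg]
      rw [h6, neg_smul, smul_smul]
  have e : pl w1 w3 = Submodule.span ℝ (Set.range ![((w1.1, (0:ℝ)) : EuclideanSpace ℝ (Fin d) × ℝ), (w3.1, (0:ℝ))]) := by
    ext y
    rw [mem_pl, Submodule.mem_span_pair]
    have hr : Set.range ![((w1.1, (0:ℝ)) : EuclideanSpace ℝ (Fin d) × ℝ), (w3.1, (0:ℝ))] =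
        {(w1.1, (0:ℝ)), (w3.1, (0:ℝ))} := by
      simp
      exact Set.pair_comm _ _
    rw [hr, Submodule.mem_span_pair]
    constructor
    · rintro ⟨⟨a, b, hab⟩, h0⟩
      refine ⟨a, b, ?_⟩
      apply Prod.ext
      · simpa using hab
      · simp [h0]
    · rintro ⟨a, b, rfl⟩
      simp
  rw [e, finrank_span_eq_card hli, Fintype.card_fin]

/-- case A of a pattern: the flat contains a direction of the plane of the mirrors -/
theorem axA_of {d : ℕ} (p : EuclideanSpace ℝ (Fin d)) (w1 w3 w : EuclideanSpace ℝ (Fin d) × ℝ)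
    (h1 : w1 ∈ hyp p) (h3 : w3 ∈ hyp p) (n1 : w1 ≠ 0) (hs : w3 ∉ Submodule.span ℝ {w1})
    (hw : w = w1 ∨ w = w3) (r : ℕ) (U : Submodule ℝ (EuclideanSpace ℝ (Fin d) × ℝ))
    (hU : Module.finrank ℝ U = r)
    (hWr : Module.finrank ℝ (U ⊓ (fx w1 ⊓ fx w3) :
      Submodule ℝ (EuclideanSpace ℝ (Fin d) × ℝ)) + 1 = r)
    (a : EuclideanSpace ℝ (Fin d)) (ha : lf a ∈ U) (hne : U.map (rfL w) ≠ U)
    (hcase : Module.finrank ℝ (U ⊔ pl w1 w3 :
      Submodule ℝ (EuclideanSpace ℝ (Fin d) × ℝ)) ≤ r + 1) : AxA p U (U.map (rfL w)) := by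
  have hpl := finrank_pl p w1 w3 h1 h3 n1 hs
  obtain ⟨W, hWdef⟩ : ∃ W : Submodule ℝ (EuclideanSpace ℝ (Fin d) × ℝ),
    W = U ⊓ (fx w1 ⊓ fx w3) := ⟨_, rfl⟩
  rw [← hWdef] at hWr
  have hWU : W ≤ U := by rw [hWdef]; exact inf_le_left
  have hW1 : W ≤ fx w1 := by rw [hWdef]; exact inf_le_right.trans inf_le_left
  have hW3 : W ≤ fx w3 := by rw [hWdef]; exact inf_le_right.trans inf_le_right
  have hWw : W ≤ fx w := by
    rcases hw with rfl | rfl
    · exact hW1
    · exact hW3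
  -- a direction
  have e1 := Submodule.finrank_sup_add_finrank_inf_eq U (pl w1 w3)
  have hpos : 0 < Module.finrank ℝ (U ⊓ pl w1 w3 :
      Submodule ℝ (EuclideanSpace ℝ (Fin d) × ℝ)) := by omega
  obtain ⟨⟨n, hn⟩, hn0⟩ : ∃ n : (U ⊓ pl w1 w3 :
      Submodule ℝ (EuclideanSpace ℝ (Fin d) × ℝ)), n ≠ 0 := by
    have := Module.finrank_pos_iff.mp hpos
    exact exists_ne 0
  have hn0' : n ≠ 0 := by
    intro h
    apply hn0
    exact Subtype.ext h
  obtain ⟨hnU, hnpl⟩ := hn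
  rw [SetLike.mem_coe] at hnU hnpl
  have hn' := (mem_pl _ _ _).mp hnpl
  -- it is not in `W`
  have hnW : n ∉ W := by
    intro hc
    have k1 := (mem_fx _ _).mp (hW1 hc)
    have k3 := (mem_fx _ _).mp (hW3 hc)
    rw [hn'.2, mul_zero] at k1 k3
    have k4 : inner ℝ n.1 n.1 = (0:ℝ) :=
      inner_span_zero _ _ _ _ hn'.1 (by linarith) (by linarith)
    apply hn0'
    exact Prod.ext (inner_self_eq_zero.mp k4) hn'.2
  have hUW : U = W ⊔ Submodule.span ℝ {n} := by
    symm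
    apply Submodule.eq_of_le_of_finrank_le
    · refine sup_le hWU ?_
      rw [Submodule.span_singleton_le_iff_mem]
      exact hnU
    · have e2 : W < W ⊔ Submodule.span ℝ {n} := by
        refine lt_of_le_of_ne le_sup_left ?_
        intro he
        apply hnW
        rw [he]
        exact Submodule.mem_sup_right (Submodule.mem_span_singleton_self n)
      have e3 := Submodule.finrank_lt_finrank_of_lt e2
      omega
  -- the intersection
  have hU' : Module.finrank ℝ (U.map (rfL w)) = r := by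
    rw [← hU]
    exact (LinearEquiv.finrank_eq (Submodule.equivMapOfInjective (rfL w) (rfL_injective w) U)).symm
  have hWU' : W ≤ U.map (rfL w) := by
    rw [← rfL_fixed w W hWw]
    exact Submodule.map_mono hWU
  have hint : U ⊓ U.map (rfL w) = W := by
    symm
    apply Submodule.eq_of_le_of_finrank_le (le_inf hWU hWU')
    have e2 : U ⊓ U.map (rfL w) < U := by
      refine lt_of_le_of_ne inf_le_left ?_
      intro hc
      apply hne
      symm
      apply Submodule.eq_of_le_of_finrank_eq (inf_eq_left.mp hc)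
      rw [hU, hU']
    have e4 := Submodule.finrank_lt_finrank_of_lt e2
    omega
  refine ⟨w1, w3, h1, h3, n1, hs, ?_, ?_, ?_⟩
  · rw [hint, hWdef]
    exact inf_le_right
  · rw [hint]
    have h := ha
    rw [hUW] at h
    obtain ⟨y, hy, z, hz, hyz⟩ := Submodule.mem_sup.mp h
    obtain ⟨c, rfl⟩ := Submodule.mem_span_singleton.mp hz
    refine ⟨y, hy, ?_⟩
    have h2 : y.2 + (c • n).2 = 1 := congrArg Prod.snd hyz
    rw [Prod.smul_snd, hn'.2, smul_zero, add_zero] at h2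
    exact h2
  · rw [hint]
    apply Submodule.eq_of_le_of_finrank_le
    · have k1 : U ≤ W ⊔ pl w1 w3 := by
        rw [hUW]
        refine sup_le le_sup_left ?_
        rw [Submodule.span_singleton_le_iff_mem]
        exact Submodule.mem_sup_right hnpl
      refine sup_le k1 ?_
      calc U.map (rfL w) ≤ (W ⊔ pl w1 w3).map (rfL w) := Submodule.map_mono k1
        _ = W.map (rfL w) ⊔ (pl w1 w3).map (rfL w) := Submodule.map_sup _ _ _
        _ ≤ _ := by
            rw [rfL_fixed w W hWw]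
            exact sup_le le_sup_left ((rfL_pl w1 w3 w hw).trans le_sup_right)
    · have k2 := Submodule.finrank_sup_add_finrank_inf_eq U (U.map (rfL w))
      rw [hint] at k2
      have k3 := Submodule.finrank_add_le_finrank_add_finrank W (pl w1 w3)
      omega

end Vale.Agent.P054G
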