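import Vale.Agent.P054.MathlibUsed
import Vale.Agent.P054.H428.AxisA
attribute [-instance] ProperSMul.toContinuousSMul IsTopologicalTorsor.toContinuousSMul IdemSemiring.toCanonicallyOrderedAdd IdemSemiring.toMulLeftMono IdemSemiring.toMulRightMono AddQuantale.instAddLeftMono AddQuantale.instAddRightMono Quantale.instMulLeftMono Quantale.instMulRightMono FiniteDimensional.rclike_to_real IsScalarTower.complexToReal FiniteDimensional.complexToReal

set_option linter.all false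
set_option autoImplicit false

open Finset

/-! P054: all patterns of a bad centre, the two cases. -/

namespace Vale.Agent.P054G

open Vale.Agent.P054K

/-- case A: the centre is on the axis given by `U` and another robust flat -/
def DatA {d : ℕ} (X : Finset (EuclideanSpace ℝ (Fin d))) (θ : ℝ) (r : ℕ)
    (p : EuclideanSpace ℝ (Fin d)) (U : Submodule ℝ (EuclideanSpace ℝ (Fin d) × ℝ)) : Prop :=
  RobA X θ r U ∧ ∃ U', RobA X θ r U' ∧ AxA p U U'

/-- case B: three robust flats spanning dimension `r + 2` -/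
def DatB {d : ℕ} (X : Finset (EuclideanSpace ℝ (Fin d))) (θ : ℝ) (r : ℕ)
    (p : EuclideanSpace ℝ (Fin d)) (T : Submodule ℝ (EuclideanSpace ℝ (Fin d) × ℝ) ×
      Submodule ℝ (EuclideanSpace ℝ (Fin d) × ℝ) × Submodule ℝ (EuclideanSpace ℝ (Fin d) × ℝ)) :
    Prop :=
  RobA X θ r T.1 ∧ RobA X θ r T.2.1 ∧ RobA X θ r T.2.2 ∧
    Fan r (T.1 ⊓ T.2.1 ⊓ T.2.2) T.1 T.2.1 T.2.2 ∧
    ∃ w1 w3 : EuclideanSpace ℝ (Fin d) × ℝ, w1 ∈ hyp p ∧ w3 ∈ hyp p ∧ w1 ≠ 0 ∧ w3 ≠ 0 ∧
      w3 ∉ Submodule.span ℝ {w1} ∧ T.1.map (rfL w1) = T.2.1 ∧ T.1.map (rfL w3) = T.2.2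

theorem off_half {d : ℕ} (A : Finset (EuclideanSpace ℝ (Fin d))) (r : ℕ)
    (U W : Submodule ℝ (EuclideanSpace ℝ (Fin d) × ℝ))
    (hRob : RobA A ((A.card : ℝ) / 2 ^ d) r U) (hW : W < U) :
    (A.card : ℝ) / 2 ^ (d + 1) ≤ (off A U W : ℝ) := by
  have h := robA_off hRob hW
  rw [pow_succ, ← div_div]
  exact h

/-- the difference of a point and its mirror image -/
theorem nrm_mem {d : ℕ} (w : EuclideanSpace ℝ (Fin d) × ℝ) (a : EuclideanSpace ℝ (Fin d))
    (S : Submodule ℝ (EuclideanSpace ℝ (Fin d) × ℝ)) (ha : lf a ∈ S) (hb : lf (rf w a) ∈ S)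
    (hne : a ≠ rf w a) : (w.1, (0:ℝ)) ∈ S := by
  have h1 : lf a - lf (rf w a) ∈ S := S.sub_mem ha hb
  have h2 : lf a - lf (rf w a) = ((2 * inner ℝ w.1 a - w.2) / ‖w.1‖ ^ 2) • (w.1, (0:ℝ)) := by
    unfold lf rf
    apply Prod.ext
    · simp
    · simp
  rw [h2] at h1
  have h3 : (2 * inner ℝ w.1 a - w.2) / ‖w.1‖ ^ 2 ≠ 0 := by
    intro h0
    apply hne
    unfold rf
    rw [h0, zero_smul, sub_zero]
  exact (Submodule.smul_mem_iff S h3).mp h1

/-- the flats of one pattern -/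
theorem dat_of_pattern3 {d : ℕ} (X A : Finset (EuclideanSpace ℝ (Fin d))) (hAX : A ⊆ X) (θ : ℝ)
    (hθ0 : 0 < θ) (hθ : θ ≤ (A.card : ℝ) / 2 ^ d) (hAcard : 2 ^ d < A.card)
    (p : EuclideanSpace ℝ (Fin d)) (w1 w2 w3 : EuclideanSpace ℝ (Fin d) × ℝ) (h1 : w1 ∈ hyp p)
    (h2 : w2 ∈ hyp p) (h3 : w3 ∈ hyp p) (n1 : w1 ≠ 0) (n2 : w2 ≠ 0) (n3 : w3 ≠ 0)
    (hA : ∀ a ∈ A, Follows X w1 w2 w3 a) :
    (∃ U : Submodule ℝ (EuclideanSpace ℝ (Fin d) × ℝ), (A.card : ℝ) / 2 ^ (d + 1) ≤ mass A lf U ∧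
      (Dat2 X θ d p U ∨ ∃ r, 2 ≤ r ∧ r < d ∧ DatA X θ r p U)) ∨
    (∃ T : Submodule ℝ (EuclideanSpace ℝ (Fin d) × ℝ) ×
      Submodule ℝ (EuclideanSpace ℝ (Fin d) × ℝ) × Submodule ℝ (EuclideanSpace ℝ (Fin d) × ℝ),
      (A.card : ℝ) / 2 ^ (d + 1) ≤ (off A T.1 (T.1 ⊓ T.2.1 ⊓ T.2.2) : ℝ) ∧
      ∃ r, 2 ≤ r ∧ r < d ∧ DatB X θ r p T) := by
  classical
  have hAne : A.Nonempty := by
    rw [← card_pos]
    have : 0 < 2 ^ d := by positivity
    omega
  obtain ⟨a0, ha0⟩ := hAne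
  have hA0 := hA a0 ha0
  obtain ⟨-, -, f3, f4, f5, f6⟩ := hA0
  have hs12 : w2 ∉ Submodule.span ℝ {w1} := by
    intro hc
    have e := rf_of_span w2 w1 n2 n1 hc (rf w1 a0)
    rw [rf_rf, f3] at e
    exact f6 e
  have hs13 : w3 ∉ Submodule.span ℝ {w1} := by
    intro hc
    exact f5 (rf_of_span w3 w1 n3 n1 hc a0).symm
  have hs23 : w3 ∉ Submodule.span ℝ {w2} := by
    intro hc
    have e := rf_of_span w3 w2 n3 n2 hc a0
    rw [← f3] at e
    have e2 := congrArg (rf w2) e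
    rw [rf_rf, rf_rf] at e2
    exact f4 e2.symm
  obtain ⟨m, hm, hmsp, w, hw, hmA⟩ := refl_tri2 p w1 w2 w3 h1 h2 h3 n1
  have hmA' : ∀ a ∈ A, inner ℝ m (a - p) = 0 ∧ inner ℝ m (rf w a - p) ≠ 0 := by
    intro a ha
    obtain ⟨-, -, g3, g4, g5, g6⟩ := hA a ha
    exact hmA a g4 (by rw [g3]; exact g5) (by rw [g3]; exact g6) g3.symm
  obtain ⟨r, U, hr2, hrd, hU0, hRob⟩ := min_flatA A (hf m p) (finrank_hf m p hm).le
    (fun a ha => (lf_mem_hf m p a).mpr (hmA' a ha).1) hAcard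
  have hRobA : RobA A θ r U := hRob.mono (Finset.Subset.refl A) hθ
  have hRobR := hRobA.toRob hθ0.le
  obtain ⟨a1, ha1, ha1U⟩ := hRobR.nonempty (by omega) (by positivity)
  have hwne : U.map (rfL w) ≠ U := by
    intro hc
    have e1 : lf (rf w a1) ∈ U := by
      rw [← hc, ← rfL_lf]
      exact Submodule.mem_map_of_mem ha1U
    exact (hmA' a1 ha1).2 ((lf_mem_hf m p _).mp (hU0 e1))
  have hne : U.map (rfL w1) ≠ U ∨ U.map (rfL w3) ≠ U := by
    rcases hw with rfl | rfl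
    · exact Or.inl hwne
    · exact Or.inr hwne
  have hRU1 : RobA X θ r (U.map (rfL w1)) := robA_map A X _ r U w1 hRobA (fun a ha => (hA a ha).1)
  have hRU3 : RobA X θ r (U.map (rfL w3)) :=
    robA_map A X _ r U w3 hRobA (fun a ha => (hA a ha).2.1)
  have hRU : RobA X θ r U := hRobA.mono hAX le_rfl
  -- the common subflat
  obtain ⟨W, hWdef⟩ : ∃ W : Submodule ℝ (EuclideanSpace ℝ (Fin d) × ℝ),
    W = U ⊓ (fx w1 ⊓ fx w3) := ⟨_, rfl⟩
  have hWlt : W < U := by
    rw [hWdef]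
    refine lt_of_le_of_ne inf_le_left ?_
    intro hc
    have e3 : lf a1 ∈ fx w1 := by
      have : lf a1 ∈ U ⊓ (fx w1 ⊓ fx w3) := by rw [hc]; exact ha1U
      exact this.2.1
    exact (hA a1 ha1).2.2.2.1 (lf_mem_fx w1 a1 e3).symm
  have hWr : Module.finrank ℝ W + 1 = r := by
    have e1 := axis_codim p m w1 w3 h1 h3 hm hmsp U hU0
    have e4 := Submodule.finrank_lt_finrank_of_lt hWlt
    rw [← hWdef, hRob.1] at e1
    rw [hRob.1] at e4
    omega
  have hW1 : W ≤ fx w1 := by rw [hWdef]; exact inf_le_right.trans inf_le_left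
  have hW3 : W ≤ fx w3 := by rw [hWdef]; exact inf_le_right.trans inf_le_right
  have hWU1 : W ≤ U.map (rfL w1) := by
    rw [← rfL_fixed w1 W hW1]; exact Submodule.map_mono hWlt.le
  have hWU3 : W ≤ U.map (rfL w3) := by
    rw [← rfL_fixed w3 W hW3]; exact Submodule.map_mono hWlt.le
  have hmassU : (A.card : ℝ) / 2 ^ (d + 1) ≤ mass A lf U :=
    (off_half A r U W hRob hWlt).trans (off_le_mass A U W)
  rcases Nat.lt_or_ge r d with hlt | hge
  · -- small flats
    have hpl := finrank_pl p w1 w3 h1 h3 n1 hs13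
    by_cases hcase : Module.finrank ℝ (U ⊔ pl w1 w3 :
      Submodule ℝ (EuclideanSpace ℝ (Fin d) × ℝ)) ≤ r + 1
    · left
      refine ⟨U, hmassU, Or.inr ⟨r, hr2, hlt, hRU, ?_⟩⟩
      rcases hne with h | h
      · exact ⟨_, hRU1, axA_of p w1 w3 w1 h1 h3 n1 hs13 (Or.inl rfl) r U hRob.1
          (by rw [← hWdef]; exact hWr) a1 ha1U h hcase⟩
      · exact ⟨_, hRU3, axA_of p w1 w3 w3 h1 h3 n1 hs13 (Or.inr rfl) r U hRob.1
          (by rw [← hWdef]; exact hWr) a1 ha1U h hcase⟩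
    · right
      -- the span of the three flats
      have hsup : U ⊔ U.map (rfL w1) ⊔ U.map (rfL w3) = U ⊔ pl w1 w3 := by
        have hg : ∀ w', w' = w1 ∨ w' = w3 → U.map (rfL w') ≤ U ⊔ pl w1 w3 := by
          intro w' hw'
          rintro y ⟨z, hz, rfl⟩
          rw [SetLike.mem_coe] at hz
          have e1 : rfL w' z = z - ((2 * inner ℝ w'.1 z.1 - w'.2 * z.2) / ‖w'.1‖ ^ 2) •
              ((w'.1, (0:ℝ)) : EuclideanSpace ℝ (Fin d) × ℝ) := by
            unfold rfL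
            simp only [LinearMap.coe_mk, AddHom.coe_mk]
            apply Prod.ext
            · simp
            · simp
          rw [e1]
          refine Submodule.sub_mem _ (Submodule.mem_sup_left hz)
            (Submodule.smul_mem _ _ (Submodule.mem_sup_right ?_))
          rw [mem_pl]
          refine ⟨Submodule.subset_span ?_, rfl⟩
          rcases hw' with rfl | rfl
          · exact Set.mem_insert _ _
          · exact Set.mem_insert_of_mem _ rfl
        apply le_antisymm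
        · exact sup_le (sup_le le_sup_left (hg w1 (Or.inl rfl))) (hg w3 (Or.inr rfl))
        · refine sup_le (le_sup_left.trans le_sup_left) ?_
          have k1 : (w1.1, (0:ℝ)) ∈ U ⊔ U.map (rfL w1) ⊔ U.map (rfL w3) := by
            apply nrm_mem w1 a1
            · exact Submodule.mem_sup_left (Submodule.mem_sup_left ha1U)
            · rw [← rfL_lf]
              exact Submodule.mem_sup_left (Submodule.mem_sup_right
                (Submodule.mem_map_of_mem ha1U))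
            · exact (hA a1 ha1).2.2.2.1
          have k3 : (w3.1, (0:ℝ)) ∈ U ⊔ U.map (rfL w1) ⊔ U.map (rfL w3) := by
            apply nrm_mem w3 a1
            · exact Submodule.mem_sup_left (Submodule.mem_sup_left ha1U)
            · rw [← rfL_lf]
              exact Submodule.mem_sup_right (Submodule.mem_map_of_mem ha1U)
            · exact (hA a1 ha1).2.2.2.2.2.symm
          intro y hy
          rw [mem_pl, Submodule.mem_span_pair] at hy
          obtain ⟨⟨α, β, hαβ⟩, hy2⟩ := hy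
          have e2 : y = α • ((w1.1, (0:ℝ)) : EuclideanSpace ℝ (Fin d) × ℝ) +
              β • ((w3.1, (0:ℝ)) : EuclideanSpace ℝ (Fin d) × ℝ) := by
            apply Prod.ext
            · simp [hαβ]
            · simp [hy2]
          rw [e2]
          exact Submodule.add_mem _ (Submodule.smul_mem _ _ k1) (Submodule.smul_mem _ _ k3)
      have hfr : Module.finrank ℝ (U ⊔ U.map (rfL w1) ⊔ U.map (rfL w3) :
          Submodule ℝ (EuclideanSpace ℝ (Fin d) × ℝ)) = r + 2 := by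
        rw [hsup]
        have e1 := Submodule.finrank_add_le_finrank_add_finrank U (pl w1 w3)
        rw [hRob.1] at e1
        omega
      -- `W` is the intersection
      have hint : U ⊓ U.map (rfL w1) ⊓ U.map (rfL w3) = W := by
        symm
        apply Submodule.eq_of_le_of_finrank_le (le_inf (le_inf hWlt.le hWU1) hWU3)
        have e2 : U ⊓ U.map (rfL w1) ⊓ U.map (rfL w3) < U := by
          refine lt_of_le_of_ne (inf_le_left.trans inf_le_left) ?_
          intro hc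
          have c1 : U ≤ U.map (rfL w1) := by
            conv_lhs => rw [← hc]
            exact inf_le_left.trans inf_le_right
          have c3 : U ≤ U.map (rfL w3) := by
            conv_lhs => rw [← hc]
            exact inf_le_right
          rcases hne with h | h
          · exact h (Submodule.eq_of_le_of_finrank_eq c1 (by rw [hRob.1, hRU1.1])).symm
          · exact h (Submodule.eq_of_le_of_finrank_eq c3 (by rw [hRob.1, hRU3.1])).symm
        have e4 := Submodule.finrank_lt_finrank_of_lt e2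
        rw [hRob.1] at e4
        omega
      refine ⟨(U, U.map (rfL w1), U.map (rfL w3)), ?_, r, hr2, hlt, hRU, hRU1, hRU3, ?_,
        w1, w3, h1, h3, n1, n3, hs13, rfl, rfl⟩
      · simp only
        rw [hint]
        exact off_half A r U W hRob hWlt
      · simp only
        rw [hint]
        exact ⟨hRob.1, hRU1.1, hRU3.1, hWr, hWlt.le, hWU1, hWU3, hfr⟩
  · -- hyperplanes
    left
    have hrd' : r = d := le_antisymm hrd hge
    refine ⟨U, hmassU, Or.inl ?_⟩
    rw [hrd'] at hRU hRU1 hRU3 hWr hRobR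
    refine ⟨w1, w2, w3, h1, h2, h3, n1, n2, n3, hs12, hs13, hs23, hRU, hRU1, hRU3,
      map_pattern A _ d U hRobR (by positivity) w1 w2 w3 (fun a ha => (hA a ha).2.2.1), hne, ?_,
      W, hWr, hWlt.le, hWU1, hWU3⟩
    intro _
    refine ⟨m, hm, ?_⟩
    apply Submodule.eq_of_le_of_finrank_eq hU0
    rw [finrank_hf m p hm, hRob.1, hrd']

/-- sums over disjoint classes -/
theorem sum_classes {α τ ι : Type} [DecidableEq α] [DecidableEq τ] [DecidableEq ι]
    (G X : Finset α) (hGX : G ⊆ X) (f : α → τ) (Tb : Finset τ) (g : τ → ι)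
    (Q : ι → α → Prop) [∀ i, DecidablePred (Q i)] :
    ∑ t ∈ Tb, ((G.filter (fun a => f a = t)).filter (Q (g t))).card ≤
      ∑ i ∈ Tb.image g, (X.filter (Q i)).card := by
  rw [← sum_fiberwise_of_maps_to (s := Tb) (t := Tb.image g) (g := g)
    (fun t ht => mem_image_of_mem _ ht)]
  apply sum_le_sum
  intro i _
  have h2 : ∑ t ∈ Tb.filter (fun t => g t = i), ((G.filter (fun a => f a = t)).filter (Q (g t))).card =
      ∑ t ∈ Tb.filter (fun t => g t = i), ((G.filter (fun a => f a = t)).filter (Q i)).card := by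
    apply sum_congr rfl
    intro t ht
    rw [(mem_filter.mp ht).2]
  rw [h2, ← card_biUnion]
  · apply card_le_card
    intro a ha
    rw [mem_biUnion] at ha
    obtain ⟨t, _, ha⟩ := ha
    rw [mem_filter, mem_filter] at ha
    rw [mem_filter]
    exact ⟨hGX ha.1.1, ha.2⟩
  · intro t _ t' _ hne
    change Disjoint _ _
    rw [disjoint_left]
    intro a ha ha'
    rw [mem_filter, mem_filter] at ha ha'
    exact hne (ha.1.2.symm.trans ha'.1.2)

/-- **the flats of a bad centre**, two kinds -/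
theorem bad_flats3 {d : ℕ} (X : Finset (EuclideanSpace ℝ (Fin d))) (η : ℝ) (hη : 0 < η)
    (hX : 2 ^ (d + 4) * η ^ 3 < X.card) (p : EuclideanSpace ℝ (Fin d)) (hp : Bad X η p) :
    ∃ (𝒰 : Finset (Submodule ℝ (EuclideanSpace ℝ (Fin d) × ℝ)))
      (𝒯 : Finset (Submodule ℝ (EuclideanSpace ℝ (Fin d) × ℝ) ×
        Submodule ℝ (EuclideanSpace ℝ (Fin d) × ℝ) × Submodule ℝ (EuclideanSpace ℝ (Fin d) × ℝ))),
      (X.card : ℝ) / 2 ^ (d + 5) ≤ ∑ U ∈ 𝒰, mass X lf U +
        ∑ T ∈ 𝒯, (off X T.1 (T.1 ⊓ T.2.1 ⊓ T.2.2) : ℝ) ∧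
      (∀ U ∈ 𝒰, Dat2 X ((X.card : ℝ) / (2 ^ (d + 4) * η ^ 3)) d p U ∨
        ∃ r, 2 ≤ r ∧ r < d ∧ DatA X ((X.card : ℝ) / (2 ^ (d + 4) * η ^ 3)) r p U) ∧
      ∀ T ∈ 𝒯, ∃ r, 2 ≤ r ∧ r < d ∧ DatB X ((X.card : ℝ) / (2 ^ (d + 4) * η ^ 3)) r p T := by
  classical
  obtain ⟨G, T, f, hGX, hXG, hT, hfT, hpat⟩ := pat_map X η p hp
  have hXpos : (0:ℝ) < X.card := lt_of_le_of_lt (by positivity) hX
  have hη3 : 0 < η ^ 3 := by positivity
  obtain ⟨θ, hθ⟩ : ∃ θ : ℝ, θ = (X.card : ℝ) / (2 ^ (d + 4) * η ^ 3) := ⟨_, rfl⟩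
  rw [← hθ]
  have hθ0 : 0 < θ := by rw [hθ]; positivity
  -- big patterns
  obtain ⟨Tb, hTb⟩ : ∃ Tb : Finset (Submodule ℝ (EuclideanSpace ℝ (Fin d) × ℝ) ×
        Submodule ℝ (EuclideanSpace ℝ (Fin d) × ℝ) × Submodule ℝ (EuclideanSpace ℝ (Fin d) × ℝ)),
      Tb = T.filter (fun τ => (X.card : ℝ) / (16 * η ^ 3) ≤ (G.filter (fun a => f a = τ)).card) :=
    ⟨_, rfl⟩
  have hsum : (X.card : ℝ) / 16 ≤ ∑ τ ∈ Tb, ((G.filter (fun a => f a = τ)).card : ℝ) := by
    have h1 : (G.card : ℝ) = ∑ τ ∈ T, ((G.filter (fun a => f a = τ)).card : ℝ) := by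
      exact_mod_cast card_eq_sum_card_fiberwise hfT
    have h2 : ∑ τ ∈ T, ((G.filter (fun a => f a = τ)).card : ℝ) =
        ∑ τ ∈ Tb, ((G.filter (fun a => f a = τ)).card : ℝ) +
        ∑ τ ∈ T.filter (fun τ => ¬ (X.card : ℝ) / (16 * η ^ 3) ≤
          (G.filter (fun a => f a = τ)).card), ((G.filter (fun a => f a = τ)).card : ℝ) := by
      rw [hTb, sum_filter_add_sum_filter_not]
    have h3 : ∑ τ ∈ T.filter (fun τ => ¬ (X.card : ℝ) / (16 * η ^ 3) ≤
          (G.filter (fun a => f a = τ)).card), ((G.filter (fun a => f a = τ)).card : ℝ) ≤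
        (X.card : ℝ) / 16 := by
      calc _ ≤ ∑ _τ ∈ T.filter (fun τ => ¬ (X.card : ℝ) / (16 * η ^ 3) ≤
          (G.filter (fun a => f a = τ)).card), (X.card : ℝ) / (16 * η ^ 3) := by
            apply sum_le_sum
            intro τ hτ
            have := (mem_filter.mp hτ).2
            push Not at this
            exact this.le
        _ = ((T.filter (fun τ => ¬ (X.card : ℝ) / (16 * η ^ 3) ≤
          (G.filter (fun a => f a = τ)).card)).card : ℝ) * ((X.card : ℝ) / (16 * η ^ 3)) := by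
            rw [sum_const, nsmul_eq_mul]
        _ ≤ η ^ 3 * ((X.card : ℝ) / (16 * η ^ 3)) := by
            apply mul_le_mul_of_nonneg_right _ (by positivity)
            refine le_trans ?_ hT
            exact_mod_cast card_filter_le _ _
        _ = (X.card : ℝ) / 16 := by field_simp
    linarith
  -- the flats
  have hch : ∀ τ ∈ Tb, (∃ U : Submodule ℝ (EuclideanSpace ℝ (Fin d) × ℝ),
      ((G.filter (fun a => f a = τ)).card : ℝ) / 2 ^ (d + 1) ≤
        mass (G.filter (fun a => f a = τ)) lf U ∧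
      (Dat2 X θ d p U ∨ ∃ r, 2 ≤ r ∧ r < d ∧ DatA X θ r p U)) ∨
    (∃ T : Submodule ℝ (EuclideanSpace ℝ (Fin d) × ℝ) ×
      Submodule ℝ (EuclideanSpace ℝ (Fin d) × ℝ) × Submodule ℝ (EuclideanSpace ℝ (Fin d) × ℝ),
      ((G.filter (fun a => f a = τ)).card : ℝ) / 2 ^ (d + 1) ≤
        (off (G.filter (fun a => f a = τ)) T.1 (T.1 ⊓ T.2.1 ⊓ T.2.2) : ℝ) ∧
      ∃ r, 2 ≤ r ∧ r < d ∧ DatB X θ r p T) := by
    intro τ hτ
    rw [hTb, mem_filter] at hτ
    have hbig := hτ.2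
    have hpos : (0:ℝ) < (G.filter (fun a => f a = τ)).card :=
      lt_of_lt_of_le (by positivity) hbig
    have hne : (G.filter (fun a => f a = τ)).Nonempty := by
      rw [← card_pos]
      exact_mod_cast hpos
    obtain ⟨a', ha'⟩ := hne
    rw [mem_filter] at ha'
    obtain ⟨w1, h1, w2, h2, w3, h3, n1, n2, n3, hfol⟩ := hpat a' ha'.1
    have hθA : θ ≤ ((G.filter (fun a => f a = τ)).card : ℝ) / 2 ^ d := by
      rw [hθ, le_div_iff₀ (by positivity)]
      refine le_trans (le_of_eq ?_) hbig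
      rw [pow_add]
      field_simp
      norm_num
    have hcard : 2 ^ d < (G.filter (fun a => f a = τ)).card := by
      have e1 : (1:ℝ) < θ := by
        rw [hθ, lt_div_iff₀ (by positivity), one_mul]
        exact hX
      have e2 : (1:ℝ) < ((G.filter (fun a => f a = τ)).card : ℝ) / 2 ^ d := lt_of_lt_of_le e1 hθA
      rw [lt_div_iff₀ (by positivity), one_mul] at e2
      exact_mod_cast e2
    exact dat_of_pattern3 X (G.filter (fun a => f a = τ))
      ((filter_subset _ _).trans hGX) θ hθ0 hθA hcard p w1 w2 w3 h1 h2 h3 n1 n2 n3 (by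
        intro a ha
        rw [mem_filter] at ha
        exact hfol a ha.1 (ha.2.trans ha'.2.symm))
  obtain ⟨TA, hTA⟩ : ∃ TA, TA = Tb.filter (fun τ => ∃ U : Submodule ℝ (EuclideanSpace ℝ (Fin d) × ℝ),
      ((G.filter (fun a => f a = τ)).card : ℝ) / 2 ^ (d + 1) ≤
        mass (G.filter (fun a => f a = τ)) lf U ∧
      (Dat2 X θ d p U ∨ ∃ r, 2 ≤ r ∧ r < d ∧ DatA X θ r p U)) := ⟨_, rfl⟩
  obtain ⟨TB, hTB⟩ : ∃ TB, TB = Tb.filter (fun τ => ¬ ∃ U : Submodule ℝ (EuclideanSpace ℝ (Fin d) × ℝ),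
      ((G.filter (fun a => f a = τ)).card : ℝ) / 2 ^ (d + 1) ≤
        mass (G.filter (fun a => f a = τ)) lf U ∧
      (Dat2 X θ d p U ∨ ∃ r, 2 ≤ r ∧ r < d ∧ DatA X θ r p U)) := ⟨_, rfl⟩
  have hA : ∀ τ ∈ TA, ∃ U : Submodule ℝ (EuclideanSpace ℝ (Fin d) × ℝ),
      ((G.filter (fun a => f a = τ)).card : ℝ) / 2 ^ (d + 1) ≤
        mass (G.filter (fun a => f a = τ)) lf U ∧
      (Dat2 X θ d p U ∨ ∃ r, 2 ≤ r ∧ r < d ∧ DatA X θ r p U) := by
    intro τ hτ
    rw [hTA, mem_filter] at hτ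
    exact hτ.2
  have hB : ∀ τ ∈ TB, ∃ T : Submodule ℝ (EuclideanSpace ℝ (Fin d) × ℝ) ×
      Submodule ℝ (EuclideanSpace ℝ (Fin d) × ℝ) × Submodule ℝ (EuclideanSpace ℝ (Fin d) × ℝ),
      ((G.filter (fun a => f a = τ)).card : ℝ) / 2 ^ (d + 1) ≤
        (off (G.filter (fun a => f a = τ)) T.1 (T.1 ⊓ T.2.1 ⊓ T.2.2) : ℝ) ∧
      ∃ r, 2 ≤ r ∧ r < d ∧ DatB X θ r p T := by
    intro τ hτ
    rw [hTB, mem_filter] at hτ
    rcases hch τ hτ.1 with h | h
    · exact absurd h hτ.2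
    · exact h
  choose! Uf hUf1 hUf2 using hA
  choose! Tf hTf1 hTf2 using hB
  refine ⟨TA.image Uf, TB.image Tf, ?_, ?_, ?_⟩
  · have hsplit : ∑ τ ∈ Tb, ((G.filter (fun a => f a = τ)).card : ℝ) =
        ∑ τ ∈ TA, ((G.filter (fun a => f a = τ)).card : ℝ) +
          ∑ τ ∈ TB, ((G.filter (fun a => f a = τ)).card : ℝ) := by
      rw [hTA, hTB, sum_filter_add_sum_filter_not]
    have s1 : (∑ τ ∈ TA, ((G.filter (fun a => f a = τ)).card : ℝ)) / 2 ^ (d + 1) ≤
        ∑ U ∈ TA.image Uf, mass X lf U := by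
      rw [sum_div]
      calc ∑ τ ∈ TA, ((G.filter (fun a => f a = τ)).card : ℝ) / 2 ^ (d + 1) ≤
            ∑ τ ∈ TA, mass (G.filter (fun a => f a = τ)) lf (Uf τ) := sum_le_sum hUf1
        _ = ((∑ τ ∈ TA, ((G.filter (fun a => f a = τ)).filter
              (fun a => lf a ∈ Uf τ)).card : ℕ) : ℝ) := by
            push_cast
            apply sum_congr rfl
            intro τ _
            unfold mass
            norm_cast
        _ ≤ ((∑ U ∈ TA.image Uf, (X.filter (fun a => lf a ∈ U)).card : ℕ) : ℝ) := by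
            exact_mod_cast sum_classes G X hGX f TA Uf (fun U a => lf a ∈ U)
        _ = _ := by
            push_cast
            apply sum_congr rfl
            intro U _
            unfold mass
            norm_cast
    have s2 : (∑ τ ∈ TB, ((G.filter (fun a => f a = τ)).card : ℝ)) / 2 ^ (d + 1) ≤
        ∑ T ∈ TB.image Tf, (off X T.1 (T.1 ⊓ T.2.1 ⊓ T.2.2) : ℝ) := by
      rw [sum_div]
      calc ∑ τ ∈ TB, ((G.filter (fun a => f a = τ)).card : ℝ) / 2 ^ (d + 1) ≤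
            ∑ τ ∈ TB, (off (G.filter (fun a => f a = τ)) (Tf τ).1
              ((Tf τ).1 ⊓ (Tf τ).2.1 ⊓ (Tf τ).2.2) : ℝ) := sum_le_sum hTf1
        _ = ((∑ τ ∈ TB, ((G.filter (fun a => f a = τ)).filter
              (fun a => lf a ∈ (Tf τ).1 ∧ lf a ∉ (Tf τ).1 ⊓ (Tf τ).2.1 ⊓ (Tf τ).2.2)).card : ℕ) : ℝ) := by
            push_cast
            apply sum_congr rfl
            intro τ _
            unfold off
            congr
        _ ≤ ((∑ T ∈ TB.image Tf, (X.filter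
              (fun a => lf a ∈ T.1 ∧ lf a ∉ T.1 ⊓ T.2.1 ⊓ T.2.2)).card : ℕ) : ℝ) := by
            exact_mod_cast sum_classes G X hGX f TB Tf
              (fun T a => lf a ∈ T.1 ∧ lf a ∉ T.1 ⊓ T.2.1 ⊓ T.2.2)
        _ = _ := by
            push_cast
            apply sum_congr rfl
            intro T _
            unfold off
            congr
    have s3 : (X.card : ℝ) / 2 ^ (d + 5) = ((X.card : ℝ) / 16) / 2 ^ (d + 1) := by
      rw [div_div]
      congr 1
      rw [show d + 5 = 4 + (d + 1) by ring, pow_add]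
      norm_num
    calc (X.card : ℝ) / 2 ^ (d + 5) = ((X.card : ℝ) / 16) / 2 ^ (d + 1) := s3
      _ ≤ (∑ τ ∈ Tb, ((G.filter (fun a => f a = τ)).card : ℝ)) / 2 ^ (d + 1) :=
          div_le_div_of_nonneg_right hsum (by positivity)
      _ = (∑ τ ∈ TA, ((G.filter (fun a => f a = τ)).card : ℝ)) / 2 ^ (d + 1) +
          (∑ τ ∈ TB, ((G.filter (fun a => f a = τ)).card : ℝ)) / 2 ^ (d + 1) := by
          rw [hsplit, add_div]
      _ ≤ _ := add_le_add s1 s2
  · intro U hU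
    rw [mem_image] at hU
    obtain ⟨τ, hτ, rfl⟩ := hU
    exact hUf2 τ hτ
  · intro T hT'
    rw [mem_image] at hT'
    obtain ⟨τ, hτ, rfl⟩ := hT'
    exact hTf2 τ hτ

end Vale.Agent.P054G
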