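import Vale.Agent.P054.MathlibUsed
import Vale.Agent.P054.H239.HFin
import Vale.Agent.P054.H343.G.LocC
import Vale.Agent.P054.H428.PatD
attribute [-instance] ProperSMul.toContinuousSMul IsTopologicalTorsor.toContinuousSMul IdemSemiring.toCanonicallyOrderedAdd IdemSemiring.toMulLeftMono IdemSemiring.toMulRightMono AddQuantale.instAddLeftMono AddQuantale.instAddRightMono Quantale.instMulLeftMono Quantale.instMulRightMono FiniteDimensional.rclike_to_real IsScalarTower.complexToReal FiniteDimensional.complexToReal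

set_option linter.all false
set_option autoImplicit false

open Finset

/-! P054: the number of bad centres, better exponent for flats of codimension two. -/

namespace Vale.Agent.P054G

open Vale.Agent.P054K

theorem sum_biUnion_le' {ι α : Type} [DecidableEq ι] [DecidableEq α] (s : Finset ι)
    (t : ι → Finset α) (f : α → ℝ) (hf : ∀ a, 0 ≤ f a) :
    ∑ a ∈ s.biUnion t, f a ≤ ∑ i ∈ s, ∑ a ∈ t i, f a := by
  induction s using Finset.induction_on with
  | empty => simp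
  | insert i s hi ih =>
    rw [biUnion_insert, sum_insert hi]
    have h1 := sum_union_inter (s₁ := t i) (s₂ := s.biUnion t) (f := f)
    have h2 : 0 ≤ ∑ a ∈ t i ∩ s.biUnion t, f a := sum_nonneg (fun a _ => hf a)
    linarith

open scoped Classical in
/-- centres of a triple -/
theorem datB_card {d : ℕ} (P X : Finset (EuclideanSpace ℝ (Fin d))) (θ M2 : ℝ) (hθ0 : 0 < θ)
    (hM2 : 0 ≤ M2) (r : ℕ) (hr2 : 2 ≤ r)
    (hg2 : ∀ D : Submodule ℝ (EuclideanSpace ℝ (Fin d) × ℝ), Module.finrank ℝ D = 2 →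
      ((P.filter (fun p => D ≤ hyp p)).card : ℝ) ≤ M2)
    (T : Submodule ℝ (EuclideanSpace ℝ (Fin d) × ℝ) ×
      Submodule ℝ (EuclideanSpace ℝ (Fin d) × ℝ) × Submodule ℝ (EuclideanSpace ℝ (Fin d) × ℝ)) :
    ((P.filter (fun p => DatB X θ r p T)).card : ℝ) ≤ 4 * M2 := by
  obtain ⟨L, hL2, hL⟩ := mirror_fun d
  have hθ2 : 0 < θ / 2 := by positivity
  let S3 : Finset (Submodule ℝ (EuclideanSpace ℝ (Fin d) × ℝ)) :=
    ((L T.1 T.2.1 ×ˢ L T.1 T.2.2).image (fun q => q.1 ⊔ q.2)).filter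
      (fun D => ((P.filter (fun p => D ≤ hyp p)).card : ℝ) ≤ M2)
  have hS3 : (S3.card : ℝ) ≤ 4 := by
    have h1 : S3.card ≤ 4 := by
      calc S3.card ≤ _ := card_filter_le _ _
        _ ≤ _ := card_image_le
        _ ≤ 2 * 2 := by
          rw [card_product]
          exact Nat.mul_le_mul (hL2 _ _) (hL2 _ _)
        _ = 4 := by norm_num
    exact_mod_cast h1
  have hcov : P.filter (fun p => DatB X θ r p T) ⊆
      S3.biUnion fun D => P.filter (fun p => D ≤ hyp p) := by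
    intro p hp
    rw [mem_filter] at hp
    obtain ⟨hpP, R0, R1, R3, hfan, w1, w3, h1, h3, n1, n3, hs13, e1, e3⟩ := hp
    have m1 := fst_ne_zero w1 p h1 n1
    have m3 := fst_ne_zero w3 p h3 n3
    have hz : ∃ z, z ∈ FU T.1 := by
      obtain ⟨a, _, ha⟩ := (R0.toRob hθ0.le).nonempty (by omega) hθ2
      exact ⟨a, ha⟩
    have hFne : ∀ U2 : Submodule ℝ (EuclideanSpace ℝ (Fin d) × ℝ), RobA X θ r U2 →
        T.1 ≠ U2 → FU T.1 ≠ FU U2 := fun U2 a2 hne' =>
      FU_ne (R0.toRob hθ0.le) (a2.toRob hθ0.le) hθ2 hθ2 hne'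
    have d1 : T.1 ≠ T.2.1 := by
      intro hc
      have h := fan_sup hfan
      rw [← hc, sup_idem, hfan.1] at h
      omega
    have d3 : T.1 ≠ T.2.2 := by
      intro hc
      have h := fan_sup hfan.swap23
      rw [← hc, sup_idem, hfan.1] at h
      omega
    have e12 : Submodule.span ℝ {w1} ∈ L T.1 T.2.1 := hL _ _ w1 m1 e1 (hFne _ R1 d1) hz
    have e13 : Submodule.span ℝ {w3} ∈ L T.1 T.2.2 := hL _ _ w3 m3 e3 (hFne _ R3 d3) hz
    have hm : (Submodule.span ℝ {w1}, Submodule.span ℝ {w3}) ∈ L T.1 T.2.1 ×ˢ L T.1 T.2.2 :=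
      mem_product.mpr ⟨e12, e13⟩
    have hm2 := mem_image_of_mem (fun q : Submodule ℝ (EuclideanSpace ℝ (Fin d) × ℝ) ×
      Submodule ℝ (EuclideanSpace ℝ (Fin d) × ℝ) => q.1 ⊔ q.2) hm
    rw [mem_biUnion]
    refine ⟨Submodule.span ℝ {w1} ⊔ Submodule.span ℝ {w3}, ?_, ?_⟩
    · refine mem_filter.mpr ⟨hm2, ?_⟩
      exact card_of_finrank P M2 hg2 (Submodule.span ℝ {w1} ⊔ Submodule.span ℝ {w3}) w1 w3
        (Submodule.mem_sup_left (Submodule.mem_span_singleton_self w1))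
        (Submodule.mem_sup_right (Submodule.mem_span_singleton_self w3)) n1 hs13
    · rw [mem_filter]
      refine ⟨hpP, sup_le ?_ ?_⟩
      · rw [Submodule.span_singleton_le_iff_mem]; exact h1
      · rw [Submodule.span_singleton_le_iff_mem]; exact h3
  have h2 : ((P.filter (fun p => DatB X θ r p T)).card : ℝ) ≤
      ((S3.biUnion fun D => P.filter (fun p => D ≤ hyp p)).card : ℝ) := by
    exact_mod_cast card_le_card hcov
  calc _ ≤ _ := h2
    _ ≤ (S3.card : ℝ) * M2 := card_biUnion_le_real _ _ M2 (fun D hD => (mem_filter.mp hD).2)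
    _ ≤ 4 * M2 := mul_le_mul_of_nonneg_right hS3 hM2

open scoped Classical in
/-- centres of case A -/
theorem datA_card {d : ℕ} (P X : Finset (EuclideanSpace ℝ (Fin d))) (θ M2 : ℝ) (hθ0 : 0 < θ)
    (hM2 : 0 ≤ M2) (r : ℕ)
    (hg2 : ∀ D : Submodule ℝ (EuclideanSpace ℝ (Fin d) × ℝ), Module.finrank ℝ D = 2 →
      ((P.filter (fun p => D ≤ hyp p)).card : ℝ) ≤ M2)
    (U : Submodule ℝ (EuclideanSpace ℝ (Fin d) × ℝ)) :
    ((P.filter (fun p => DatA X θ r p U)).card : ℝ) ≤ (robsA X θ r).card * M2 := by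
  have hcov : P.filter (fun p => DatA X θ r p U) ⊆
      (robsA X θ r).biUnion fun U' => P.filter (fun p => AxA p U U') := by
    intro p hp
    rw [mem_filter] at hp
    obtain ⟨hpP, _, U', hU', hax⟩ := hp
    rw [mem_biUnion]
    exact ⟨U', (mem_robsA hθ0).mpr hU', mem_filter.mpr ⟨hpP, hax⟩⟩
  have h2 : ((P.filter (fun p => DatA X θ r p U)).card : ℝ) ≤
      (((robsA X θ r).biUnion fun U' => P.filter (fun p => AxA p U U')).card : ℝ) := by
    exact_mod_cast card_le_card hcov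
  exact h2.trans (card_biUnion_le_real _ _ M2 (fun U' _ => axA_card P M2 hM2 hg2 U U'))

open scoped Classical in
/-- **few bad centres** -/
theorem bad_countD {d : ℕ} (hd : 2 ≤ d) (P X : Finset (EuclideanSpace ℝ (Fin d)))
    (η κ W M1 M2 B : ℝ) (hη : 1 ≤ η) (hκ : κ = 2 ^ (d + 4) * η ^ 3) (hX : κ < X.card)
    (hW : 1 ≤ W) (hM1 : 0 ≤ M1) (hM2 : 0 ≤ M2) (hB0 : 0 ≤ B)
    (hS : ∀ r, 2 ≤ r → r ≤ d → ∑ U ∈ robsA X ((X.card : ℝ) / κ) r, mass X lf U ≤
      W * (X.card * κ ^ (r - 2)))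
    (hN : ∀ r, 2 ≤ r → r < d → ((robsA X ((X.card : ℝ) / κ) r).card : ℝ) ≤ W * κ ^ (r - 1))
    (hB : ∀ r, 2 ≤ r → r < d → 16 * W ^ 3 * κ ^ (3 * (r - 2) + 4) ≤ B ^ 2)
    (hg1 : ∀ p0 v : EuclideanSpace ℝ (Fin d), v ≠ 0 →
      ((P.filter (fun z => inner ℝ v (z - p0) = 0)).card : ℝ) ≤ M1)
    (hg2 : ∀ D : Submodule ℝ (EuclideanSpace ℝ (Fin d) × ℝ), Module.finrank ℝ D = 2 →
      ((P.filter (fun p => D ≤ hyp p)).card : ℝ) ≤ M2) :
    ((P.filter (fun p => Bad X η p)).card : ℝ) ≤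
      2 ^ (d + 5) * (∑ r ∈ Finset.Ico 2 d, (W * κ ^ (r - 2) * (W * κ ^ (r - 1)) + 4 * B) * M2 +
        W * κ ^ (d - 2) * M1) := by
  have hη0 : 0 < η := by linarith
  have hη3 : 0 < η ^ 3 := by positivity
  have hκ0 : 0 < κ := by rw [hκ]; positivity
  have hXpos : (0:ℝ) < X.card := hκ0.trans hX
  have hW0 : 0 < W := by linarith
  obtain ⟨θ, hθ⟩ : ∃ θ : ℝ, θ = (X.card : ℝ) / κ := ⟨_, rfl⟩
  have hθ0 : 0 < θ := by rw [hθ]; positivity
  rw [← hθ] at hS hN
  obtain ⟨Pb, hPb⟩ : ∃ Pb : Finset (EuclideanSpace ℝ (Fin d)),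
    Pb = P.filter (fun p => Bad X η p) := ⟨_, rfl⟩
  rw [← hPb]
  have hm0 : ∀ U : Submodule ℝ (EuclideanSpace ℝ (Fin d) × ℝ), 0 ≤ mass X lf U := by
    intro U; unfold mass; positivity
  -- the triples
  obtain ⟨Sr, hSr⟩ : ∃ Sr : ℕ → Finset (Submodule ℝ (EuclideanSpace ℝ (Fin d) × ℝ) ×
      Submodule ℝ (EuclideanSpace ℝ (Fin d) × ℝ) × Submodule ℝ (EuclideanSpace ℝ (Fin d) × ℝ)),
      Sr = fun r => (robsA X θ r ×ˢ robsA X θ r ×ˢ robsA X θ r).filter
        (fun T => Fan r (T.1 ⊓ T.2.1 ⊓ T.2.2) T.1 T.2.1 T.2.2) := ⟨_, rfl⟩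
  have hSrB : ∀ r, 2 ≤ r → r < d →
      ∑ T ∈ Sr r, (off X T.1 (T.1 ⊓ T.2.1 ⊓ T.2.2) : ℝ) ≤ B * X.card := by
    intro r hr2 hrd
    obtain ⟨Y, hY⟩ : ∃ Y : ℝ, Y = ∑ T ∈ Sr r, (off X T.1 (T.1 ⊓ T.2.1 ⊓ T.2.2) : ℝ) := ⟨_, rfl⟩
    have hY0 : 0 ≤ Y := by rw [hY]; positivity
    have h1 := tri_weight X θ hθ0 r (robsA X θ r) (fun U hU => (mem_robsA hθ0).mp hU) (Sr r) (by
      intro T hT
      rw [hSr] at hT
      simp only [mem_filter, mem_product] at hT
      exact ⟨hT.1.1, hT.1.2.1, hT.1.2.2, hT.2⟩)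
    rw [← hY] at h1 ⊢
    have h2 : (∑ U ∈ robsA X θ r, mass X lf U) ^ 3 ≤ (W * (X.card * κ ^ (r - 2))) ^ 3 :=
      pow_le_pow_left₀ (sum_nonneg (fun U _ => hm0 U)) (hS r hr2 hrd.le) 3
    have h3 : ((θ / 2) ^ 2 * Y) ^ 2 ≤ (X.card : ℝ) ^ 3 * (W * (X.card * κ ^ (r - 2))) ^ 3 :=
      h1.trans (mul_le_mul_of_nonneg_left h2 (by positivity))
    have h4 : Y ^ 2 ≤ (B * X.card) ^ 2 := by
      have e1 : ((θ / 2) ^ 2 * Y) ^ 2 = (X.card : ℝ) ^ 4 / (16 * κ ^ 4) * Y ^ 2 := by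
        rw [hθ]
        field_simp
        ring
      rw [e1] at h3
      have e2 : (X.card : ℝ) ^ 3 * (W * (X.card * κ ^ (r - 2))) ^ 3 =
          (X.card : ℝ) ^ 4 / (16 * κ ^ 4) * ((16 * W ^ 3 * κ ^ (3 * (r - 2) + 4)) * X.card ^ 2) := by
        field_simp
        ring
      rw [e2] at h3
      have h5 := le_of_mul_le_mul_left h3 (by positivity)
      calc Y ^ 2 ≤ (16 * W ^ 3 * κ ^ (3 * (r - 2) + 4)) * X.card ^ 2 := h5
        _ ≤ B ^ 2 * X.card ^ 2 := mul_le_mul_of_nonneg_right (hB r hr2 hrd) (by positivity)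
        _ = _ := by ring
    exact (pow_le_pow_iff_left₀ hY0 (by positivity) (by norm_num)).mp h4
  -- lower bound for one centre
  have hone : ∀ p ∈ Pb, (X.card : ℝ) / 2 ^ (d + 5) ≤
      (∑ r ∈ Finset.Ico 2 d, ∑ U ∈ (robsA X θ r).filter (fun U => DatA X θ r p U), mass X lf U) +
      (∑ U ∈ (robsA X θ d).filter (fun U => Dat2 X θ d p U), mass X lf U) +
      ∑ r ∈ Finset.Ico 2 d, ∑ T ∈ (Sr r).filter (fun T => DatB X θ r p T),
        (off X T.1 (T.1 ⊓ T.2.1 ⊓ T.2.2) : ℝ) := by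
    intro p hp
    rw [hPb, mem_filter] at hp
    obtain ⟨𝒰, 𝒯, h1, h2, h3⟩ := bad_flats3 X η hη0 (by rw [← hκ]; exact hX) p hp.2
    rw [← hκ, ← hθ] at h2 h3
    refine h1.trans ?_
    have i1 : ∑ U ∈ 𝒰, mass X lf U ≤
        (∑ r ∈ Finset.Ico 2 d, ∑ U ∈ (robsA X θ r).filter (fun U => DatA X θ r p U), mass X lf U) +
        ∑ U ∈ (robsA X θ d).filter (fun U => Dat2 X θ d p U), mass X lf U := by
      have hsub : 𝒰 ⊆ ((Finset.Ico 2 d).biUnion
          (fun r => (robsA X θ r).filter (fun U => DatA X θ r p U))) ∪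
            (robsA X θ d).filter (fun U => Dat2 X θ d p U) := by
        intro U hU
        rw [mem_union, mem_biUnion]
        rcases h2 U hU with h | ⟨r, hr2, hrd, hD⟩
        · right
          rw [mem_filter, mem_robsA hθ0]
          refine ⟨?_, h⟩
          obtain ⟨w1, w2, w3, _, _, _, _, _, _, _, _, _, hR, _⟩ := h
          exact hR
        · left
          exact ⟨r, mem_Ico.mpr ⟨hr2, hrd⟩, mem_filter.mpr ⟨(mem_robsA hθ0).mpr hD.1, hD⟩⟩
      calc ∑ U ∈ 𝒰, mass X lf U ≤ ∑ U ∈ ((Finset.Ico 2 d).biUnion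
          (fun r => (robsA X θ r).filter (fun U => DatA X θ r p U))) ∪
            (robsA X θ d).filter (fun U => Dat2 X θ d p U), mass X lf U :=
            sum_le_sum_of_subset_of_nonneg hsub (fun U _ _ => hm0 U)
        _ ≤ ∑ U ∈ ((Finset.Ico 2 d).biUnion
          (fun r => (robsA X θ r).filter (fun U => DatA X θ r p U))), mass X lf U +
            ∑ U ∈ (robsA X θ d).filter (fun U => Dat2 X θ d p U), mass X lf U := by
            rw [← sum_union_inter]
            have : 0 ≤ ∑ U ∈ ((Finset.Ico 2 d).biUnion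
              (fun r => (robsA X θ r).filter (fun U => DatA X θ r p U))) ∩
                (robsA X θ d).filter (fun U => Dat2 X θ d p U), mass X lf U :=
              sum_nonneg (fun U _ => hm0 U)
            linarith
        _ ≤ _ := by
            have := sum_biUnion_le' (Finset.Ico 2 d)
              (fun r => (robsA X θ r).filter (fun U => DatA X θ r p U)) (fun U => mass X lf U) hm0
            linarith
    have i2 : ∑ T ∈ 𝒯, (off X T.1 (T.1 ⊓ T.2.1 ⊓ T.2.2) : ℝ) ≤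
        ∑ r ∈ Finset.Ico 2 d, ∑ T ∈ (Sr r).filter (fun T => DatB X θ r p T),
          (off X T.1 (T.1 ⊓ T.2.1 ⊓ T.2.2) : ℝ) := by
      have hsub : 𝒯 ⊆ (Finset.Ico 2 d).biUnion
          (fun r => (Sr r).filter (fun T => DatB X θ r p T)) := by
        intro T hT
        obtain ⟨r, hr2, hrd, hD⟩ := h3 T hT
        rw [mem_biUnion]
        refine ⟨r, mem_Ico.mpr ⟨hr2, hrd⟩, ?_⟩
        rw [mem_filter]
        refine ⟨?_, hD⟩
        rw [hSr]
        simp only [mem_filter, mem_product]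
        exact ⟨⟨(mem_robsA hθ0).mpr hD.1, (mem_robsA hθ0).mpr hD.2.1,
          (mem_robsA hθ0).mpr hD.2.2.1⟩, hD.2.2.2.1⟩
      refine (sum_le_sum_of_subset_of_nonneg hsub (fun T _ _ => by positivity)).trans ?_
      exact sum_biUnion_le' (Finset.Ico 2 d) (fun r => (Sr r).filter (fun T => DatB X θ r p T))
        (fun T => (off X T.1 (T.1 ⊓ T.2.1 ⊓ T.2.2) : ℝ)) (fun T => by positivity)
    linarith
  -- double counting
  have hdc : (Pb.card : ℝ) * ((X.card : ℝ) / 2 ^ (d + 5)) ≤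
      (∑ r ∈ Finset.Ico 2 d, ∑ U ∈ robsA X θ r,
        ((P.filter (fun p => DatA X θ r p U)).card : ℝ) * mass X lf U) +
      (∑ U ∈ robsA X θ d, ((P.filter (fun p => Dat2 X θ d p U)).card : ℝ) * mass X lf U) +
      ∑ r ∈ Finset.Ico 2 d, ∑ T ∈ Sr r, ((P.filter (fun p => DatB X θ r p T)).card : ℝ) *
        (off X T.1 (T.1 ⊓ T.2.1 ⊓ T.2.2) : ℝ) := by
    have hPbP : Pb ⊆ P := by rw [hPb]; exact filter_subset _ _
    have swapU : ∀ (r : ℕ) (R : EuclideanSpace ℝ (Fin d) →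
        Submodule ℝ (EuclideanSpace ℝ (Fin d) × ℝ) → Prop),
        ∑ p ∈ P, ∑ U ∈ (robsA X θ r).filter (fun U => R p U), mass X lf U =
        ∑ U ∈ robsA X θ r, ((P.filter (fun p => R p U)).card : ℝ) * mass X lf U := by
      intro r R
      have e1 : ∀ p ∈ P, ∑ U ∈ (robsA X θ r).filter (fun U => R p U), mass X lf U =
          ∑ U ∈ robsA X θ r, if R p U then mass X lf U else 0 := by
        intro p _
        rw [sum_filter]
      rw [sum_congr rfl e1, sum_comm]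
      apply sum_congr rfl
      intro U _
      rw [← sum_filter, sum_const, nsmul_eq_mul]
    have swapT : ∀ (r : ℕ), ∑ p ∈ P, ∑ T ∈ (Sr r).filter (fun T => DatB X θ r p T),
        (off X T.1 (T.1 ⊓ T.2.1 ⊓ T.2.2) : ℝ) =
        ∑ T ∈ Sr r, ((P.filter (fun p => DatB X θ r p T)).card : ℝ) *
          (off X T.1 (T.1 ⊓ T.2.1 ⊓ T.2.2) : ℝ) := by
      intro r
      have e1 : ∀ p ∈ P, ∑ T ∈ (Sr r).filter (fun T => DatB X θ r p T),
          (off X T.1 (T.1 ⊓ T.2.1 ⊓ T.2.2) : ℝ) =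
          ∑ T ∈ Sr r, if DatB X θ r p T then (off X T.1 (T.1 ⊓ T.2.1 ⊓ T.2.2) : ℝ) else 0 := by
        intro p _
        rw [sum_filter]
      rw [sum_congr rfl e1, sum_comm]
      apply sum_congr rfl
      intro T _
      rw [← sum_filter, sum_const, nsmul_eq_mul]
    calc (Pb.card : ℝ) * ((X.card : ℝ) / 2 ^ (d + 5)) =
          ∑ _p ∈ Pb, (X.card : ℝ) / 2 ^ (d + 5) := by rw [sum_const, nsmul_eq_mul]
      _ ≤ ∑ p ∈ Pb, ((∑ r ∈ Finset.Ico 2 d, ∑ U ∈ (robsA X θ r).filter (fun U => DatA X θ r p U),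
            mass X lf U) +
          (∑ U ∈ (robsA X θ d).filter (fun U => Dat2 X θ d p U), mass X lf U) +
          ∑ r ∈ Finset.Ico 2 d, ∑ T ∈ (Sr r).filter (fun T => DatB X θ r p T),
            (off X T.1 (T.1 ⊓ T.2.1 ⊓ T.2.2) : ℝ)) := sum_le_sum hone
      _ ≤ ∑ p ∈ P, ((∑ r ∈ Finset.Ico 2 d, ∑ U ∈ (robsA X θ r).filter (fun U => DatA X θ r p U),
            mass X lf U) +
          (∑ U ∈ (robsA X θ d).filter (fun U => Dat2 X θ d p U), mass X lf U) +
          ∑ r ∈ Finset.Ico 2 d, ∑ T ∈ (Sr r).filter (fun T => DatB X θ r p T),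
            (off X T.1 (T.1 ⊓ T.2.1 ⊓ T.2.2) : ℝ)) := by
          apply sum_le_sum_of_subset_of_nonneg hPbP
          intro p _ _
          refine add_nonneg (add_nonneg ?_ ?_) ?_
          · exact sum_nonneg (fun r _ => sum_nonneg (fun U _ => hm0 U))
          · exact sum_nonneg (fun U _ => hm0 U)
          · exact sum_nonneg (fun r _ => sum_nonneg (fun T _ => by positivity))
      _ = _ := by
          rw [sum_add_distrib, sum_add_distrib, sum_comm (s := P), sum_comm (s := P)]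
          congr 1
          · congr 1
            · apply sum_congr rfl
              intro r _
              exact swapU r (fun p U => DatA X θ r p U)
            · exact swapU d (fun p U => Dat2 X θ d p U)
          · apply sum_congr rfl
            intro r _
            exact swapT r
  have j1 : ∀ r ∈ Finset.Ico 2 d, ∑ U ∈ robsA X θ r,
      ((P.filter (fun p => DatA X θ r p U)).card : ℝ) * mass X lf U ≤
      (W * κ ^ (r - 1) * M2) * (W * (X.card * κ ^ (r - 2))) := by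
    intro r hr
    rw [mem_Ico] at hr
    calc _ ≤ ∑ U ∈ robsA X θ r, (W * κ ^ (r - 1) * M2) * mass X lf U := by
          apply sum_le_sum
          intro U _
          apply mul_le_mul_of_nonneg_right _ (hm0 U)
          exact (datA_card P X θ M2 hθ0 hM2 r hg2 U).trans
            (mul_le_mul_of_nonneg_right (hN r hr.1 hr.2) hM2)
      _ = (W * κ ^ (r - 1) * M2) * ∑ U ∈ robsA X θ r, mass X lf U := by rw [mul_sum]
      _ ≤ _ := mul_le_mul_of_nonneg_left (hS r hr.1 hr.2.le) (by positivity)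
  have j2 : ∑ U ∈ robsA X θ d, ((P.filter (fun p => Dat2 X θ d p U)).card : ℝ) * mass X lf U ≤
      M1 * (W * (X.card * κ ^ (d - 2))) := by
    calc _ ≤ ∑ U ∈ robsA X θ d, M1 * mass X lf U := by
          apply sum_le_sum
          intro U _
          exact mul_le_mul_of_nonneg_right (dat2_top P X θ M1 hM1 hg1 U) (hm0 U)
      _ = M1 * ∑ U ∈ robsA X θ d, mass X lf U := by rw [mul_sum]
      _ ≤ _ := mul_le_mul_of_nonneg_left (hS d hd le_rfl) hM1
  have j3 : ∀ r ∈ Finset.Ico 2 d, ∑ T ∈ Sr r, ((P.filter (fun p => DatB X θ r p T)).card : ℝ) *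
      (off X T.1 (T.1 ⊓ T.2.1 ⊓ T.2.2) : ℝ) ≤ (4 * M2) * (B * X.card) := by
    intro r hr
    rw [mem_Ico] at hr
    calc _ ≤ ∑ T ∈ Sr r, (4 * M2) * (off X T.1 (T.1 ⊓ T.2.1 ⊓ T.2.2) : ℝ) := by
          apply sum_le_sum
          intro T _
          exact mul_le_mul_of_nonneg_right (datB_card P X θ M2 hθ0 hM2 r hr.1 hg2 T)
            (by positivity)
      _ = (4 * M2) * ∑ T ∈ Sr r, (off X T.1 (T.1 ⊓ T.2.1 ⊓ T.2.2) : ℝ) := by rw [mul_sum]
      _ ≤ _ := mul_le_mul_of_nonneg_left (hSrB r hr.1 hr.2) (by positivity)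
  have hfin := hdc.trans (add_le_add (add_le_add (sum_le_sum j1) j2) (sum_le_sum j3))
  have e3 : ∑ r ∈ Finset.Ico 2 d, (W * κ ^ (r - 1) * M2) * (W * (X.card * κ ^ (r - 2))) +
        M1 * (W * (X.card * κ ^ (d - 2))) + ∑ r ∈ Finset.Ico 2 d, (4 * M2) * (B * X.card) =
      (∑ r ∈ Finset.Ico 2 d, (W * κ ^ (r - 2) * (W * κ ^ (r - 1)) + 4 * B) * M2 +
        W * κ ^ (d - 2) * M1) * X.card := by
    rw [add_right_comm, ← sum_add_distrib, add_mul, sum_mul]
    congr 1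
    · apply sum_congr rfl
      intro r _
      ring
    · ring
  rw [e3] at hfin
  have e4 : (Pb.card : ℝ) * ((X.card : ℝ) / 2 ^ (d + 5)) = (Pb.card / 2 ^ (d + 5) : ℝ) * X.card := by
    ring
  rw [e4] at hfin
  have h5 := le_of_mul_le_mul_right hfin hXpos
  rw [div_le_iff₀ (by positivity)] at h5
  linarith

end Vale.Agent.P054G

namespace Vale.Agent.P054I

open Vale.Agent.P054K Vale.Agent.P054G

/-- **local lemma**, triangle version: `k^(6d-13)` times codimension two plus `k^(3(d-2))` times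
hyperplanes -/
theorem locGen_tri (d : ℕ) (hd : 4 ≤ d) : ∃ (C : ℝ) (c : ℕ), 1 ≤ C ∧
    LocGen d C c 6 (3 * (d - 2)) (6 * d - 13) := by
  classical
  obtain ⟨K1, c1, hK1, hcnt⟩ := robA_count d
  obtain ⟨K2, c2, hK2, hwt⟩ := robA_weight d
  obtain ⟨q, hq⟩ : ∃ q : ℝ, q = 2 ^ (d + 4) := ⟨_, rfl⟩
  have hq1 : 1 ≤ q := by rw [hq]; exact one_le_pow₀ (by norm_num)
  have hq0 : 0 < q := by linarith
  refine ⟨2 ^ (d + 5) * (d * 17) * (K1 + K2) ^ 2 * q ^ (4 * d), 2 * (c1 + c2), ?_, ?_⟩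
  · have h1 : (1:ℝ) ≤ 2 ^ (d + 5) := one_le_pow₀ (by norm_num)
    have h2 : (1:ℝ) ≤ d * 17 := by
      have : (4:ℝ) ≤ d := by exact_mod_cast hd
      linarith
    have h3 : 1 ≤ (K1 + K2) ^ 2 := one_le_pow₀ (by linarith)
    have h4 : 1 ≤ q ^ (4 * d) := one_le_pow₀ hq1
    exact one_le_mul_of_one_le_of_one_le (one_le_mul_of_one_le_of_one_le
      (one_le_mul_of_one_le_of_one_le h1 h2) h3) h4
  intro X P t l k M1 M2 hk hl hX hM1 hM2 hP hy1 hy2
  have hk0 : 0 < k := by linarith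
  have hdr : (4:ℝ) ≤ d := by exact_mod_cast hd
  have hlog : 0 ≤ Real.log ((X.card : ℝ) + 3) := Real.log_nonneg (by
    have : (0:ℝ) ≤ X.card := by positivity
    linarith)
  have hl1 : (1:ℝ) ≤ l := by linarith
  have hl0 : (0:ℝ) < l := by linarith
  obtain ⟨W, hW⟩ : ∃ W : ℝ, W = (K1 + K2) * (l:ℝ) ^ (c1 + c2) := ⟨_, rfl⟩
  have hlc1 : (l:ℝ) ^ c1 ≤ (l:ℝ) ^ (c1 + c2) := pow_le_pow_right₀ hl1 (by omega)
  have hlc2 : (l:ℝ) ^ c2 ≤ (l:ℝ) ^ (c1 + c2) := pow_le_pow_right₀ hl1 (by omega)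
  have hW1' : K1 * (l:ℝ) ^ c1 ≤ W := by
    rw [hW]
    exact mul_le_mul (by linarith) hlc1 (by positivity) (by linarith)
  have hW2' : K2 * (l:ℝ) ^ c2 ≤ W := by
    rw [hW]
    exact mul_le_mul (by linarith) hlc2 (by positivity) (by linarith)
  have hW1 : 1 ≤ W := le_trans (one_le_mul_of_one_le_of_one_le hK1 (one_le_pow₀ hl1)) hW1'
  have hW0 : 0 < W := by linarith
  have hW2 : W ^ 2 = (K1 + K2) ^ 2 * (l:ℝ) ^ (2 * (c1 + c2)) := by
    rw [hW, mul_pow, ← pow_mul, mul_comm (c1 + c2) 2]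
  have hCC : (2 ^ (d + 5) * (d * 17) * (K1 + K2) ^ 2 * q ^ (4 * d) : ℝ) *
      (l:ℝ) ^ (2 * (c1 + c2)) = 2 ^ (d + 5) * (d * 17) * W ^ 2 * q ^ (4 * d) := by
    rw [hW2]; ring
  rw [hCC] at hX ⊢
  obtain ⟨κ, hκ⟩ : ∃ κ : ℝ, κ = 2 ^ (d + 4) * k ^ 3 := ⟨_, rfl⟩
  have hκq : κ = q * k ^ 3 := by rw [hκ, hq]
  have hκ1 : 1 ≤ κ := by
    rw [hκq]
    exact one_le_mul_of_one_le_of_one_le hq1 (one_le_pow₀ hk)
  have hκ0 : 0 < κ := by linarith
  have hκe : ∀ e, κ ^ e = q ^ e * k ^ (3 * e) := by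
    intro e
    rw [hκq, mul_pow, ← pow_mul]
  have hqe : ∀ e, e ≤ 4 * d → q ^ e ≤ q ^ (4 * d) := fun e he => pow_le_pow_right₀ hq1 he
  -- `W κ² ≤ x`
  have hside : W * κ ^ 2 * q ≤ X.card := by
    refine le_trans ?_ hX
    rw [hκe 2]
    calc W * (q ^ 2 * k ^ (3 * 2)) * q = (1 * 1 * W * q ^ 3) * k ^ 6 := by ring
      _ ≤ (2 ^ (d + 5) * (d * 17) * W ^ 2 * q ^ (4 * d)) * k ^ 6 := by
          apply mul_le_mul_of_nonneg_right _ (by positivity)
          apply mul_le_mul _ (hqe 3 (by omega)) (by positivity) (by positivity)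
          apply mul_le_mul _ (le_self_pow₀ hW1 (by norm_num)) hW0.le (by positivity)
          apply mul_le_mul (one_le_pow₀ (by norm_num)) (by linarith) (by norm_num) (by positivity)
  have hside0 : W * κ ^ 2 ≤ X.card := by
    refine le_trans ?_ hside
    exact le_mul_of_one_le_right (by positivity) hq1
  have hq2 : 2 ≤ q := by
    rw [hq]
    calc (2:ℝ) = 2 ^ 1 := by norm_num
      _ ≤ 2 ^ (d + 4) := pow_le_pow_right₀ (by norm_num) (by omega)
  have hXκ : κ < X.card := by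
    refine lt_of_lt_of_le ?_ hside
    have h1 : κ ≤ W * κ ^ 2 := by
      calc κ = 1 * κ ^ 1 := by ring
        _ ≤ W * κ ^ 2 := mul_le_mul hW1 (pow_le_pow_right₀ hκ1 (by norm_num)) (by positivity) hW0.le
    have h2 : 0 < W * κ ^ 2 := by positivity
    nlinarith
  have hX0 : (0:ℝ) < X.card := by linarith
  have hρ : 0 < (X.card : ℝ) / κ := by positivity
  have hdiv : (X.card : ℝ) / ((X.card : ℝ) / κ) = κ := by field_simp
  have hs : ∀ (K : ℝ) (c : ℕ), 1 ≤ K → K * (l:ℝ) ^ c ≤ W →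
      K * (l:ℝ) ^ c * X.card ≤ ((X.card : ℝ) / κ) ^ 2 ∧ K * (l:ℝ) ^ c ≤ (X.card : ℝ) / κ := by
    intro K c hK h
    have h' : K * (l:ℝ) ^ c * κ ^ 2 ≤ X.card :=
      (mul_le_mul_of_nonneg_right h (by positivity)).trans hside0
    constructor
    · rw [div_pow, le_div_iff₀ (by positivity)]
      calc K * (l:ℝ) ^ c * (X.card : ℝ) * κ ^ 2 = (K * (l:ℝ) ^ c * κ ^ 2) * (X.card : ℝ) := by ring
        _ ≤ (X.card : ℝ) * (X.card : ℝ) := mul_le_mul_of_nonneg_right h' hX0.le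
        _ = (X.card : ℝ) ^ 2 := by ring
    · rw [le_div_iff₀ hκ0]
      refine le_trans ?_ h'
      apply mul_le_mul_of_nonneg_left _ (by positivity)
      exact le_self_pow₀ hκ1 (by norm_num)
  obtain ⟨a1, a2⟩ := hs K1 c1 hK1 hW1'
  obtain ⟨b1, b2⟩ := hs K2 c2 hK2 hW2'
  obtain ⟨B, hBdef⟩ : ∃ B : ℝ, B = 4 * W ^ 2 * q ^ (2 * d) * k ^ (6 * d - 13) := ⟨_, rfl⟩
  have hB0 : 0 ≤ B := by rw [hBdef]; positivity
  have h1 := bad_countD (by omega : 2 ≤ d) P X k κ W M1 M2 B hk hκ hXκ hW1 hM1 hM2 hB0 (by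
    intro r hr2 hrd
    have h3 := hwt X r ((X.card : ℝ) / κ) l (robsA X ((X.card : ℝ) / κ) r) hr2 hrd
      (fun U hU => (mem_robsA hρ).mp hU) hl b1 b2
    rw [hdiv] at h3
    exact h3.trans (mul_le_mul_of_nonneg_right hW2' (by positivity))) (by
    intro r hr2 hrd
    have h3 := hcnt X r ((X.card : ℝ) / κ) l (robsA X ((X.card : ℝ) / κ) r) hr2 hrd.le
      (fun U hU => (mem_robsA hρ).mp hU) hl a1 a2
    rw [hdiv] at h3
    exact h3.trans (mul_le_mul_of_nonneg_right hW1' (by positivity))) (by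
    intro r hr2 hrd
    rw [hκe, hBdef]
    have e1 : (4 * W ^ 2 * q ^ (2 * d) * k ^ (6 * d - 13)) ^ 2 =
        16 * W ^ 4 * (q ^ (4 * d) * k ^ (2 * (6 * d - 13))) := by
      rw [mul_pow, mul_pow, mul_pow, ← pow_mul, ← pow_mul, ← pow_mul,
        show 2 * d * 2 = 4 * d by ring, show (6 * d - 13) * 2 = 2 * (6 * d - 13) by ring]
      ring
    rw [e1]
    apply mul_le_mul
    · exact mul_le_mul_of_nonneg_left (pow_le_pow_right₀ hW1 (by norm_num)) (by norm_num)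
    · exact mul_le_mul (hqe _ (by omega)) (pow_le_pow_right₀ hk (by omega)) (by positivity)
        (by positivity)
    · positivity
    · positivity) hy1 hy2
  rw [filter_true_of_mem hP] at h1
  refine h1.trans ?_
  have hsum : ∑ r ∈ Finset.Ico 2 d, (W * κ ^ (r - 2) * (W * κ ^ (r - 1)) + 4 * B) * M2 ≤
      d * (17 * W ^ 2 * q ^ (4 * d) * k ^ (6 * d - 13) * M2) := by
    calc ∑ r ∈ Finset.Ico 2 d, (W * κ ^ (r - 2) * (W * κ ^ (r - 1)) + 4 * B) * M2 ≤
          ∑ _r ∈ Finset.Ico 2 d, 17 * W ^ 2 * q ^ (4 * d) * k ^ (6 * d - 13) * M2 := by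
          apply sum_le_sum
          intro r hr
          rw [mem_Ico] at hr
          apply mul_le_mul_of_nonneg_right _ hM2
          have f1 : W * κ ^ (r - 2) * (W * κ ^ (r - 1)) ≤
              1 * W ^ 2 * q ^ (4 * d) * k ^ (6 * d - 13) := by
            have e1 : W * κ ^ (r - 2) * (W * κ ^ (r - 1)) =
                W ^ 2 * (q ^ (r - 2 + (r - 1)) * k ^ (3 * (r - 2 + (r - 1)))) := by
              rw [← hκe, pow_add]
              ring
            rw [e1, one_mul, mul_assoc]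
            apply mul_le_mul_of_nonneg_left _ (by positivity)
            exact mul_le_mul (hqe _ (by omega)) (pow_le_pow_right₀ hk (by omega)) (by positivity)
              (by positivity)
          have f2 : 4 * B ≤ 16 * W ^ 2 * q ^ (4 * d) * k ^ (6 * d - 13) := by
            rw [hBdef]
            calc 4 * (4 * W ^ 2 * q ^ (2 * d) * k ^ (6 * d - 13)) =
                  16 * W ^ 2 * q ^ (2 * d) * k ^ (6 * d - 13) := by ring
              _ ≤ _ := by
                  apply mul_le_mul_of_nonneg_right _ (by positivity)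
                  exact mul_le_mul_of_nonneg_left (hqe _ (by omega)) (by positivity)
          linarith
      _ = (Finset.Ico 2 d).card * (17 * W ^ 2 * q ^ (4 * d) * k ^ (6 * d - 13) * M2) := by
          rw [sum_const, nsmul_eq_mul]
      _ ≤ _ := by
          apply mul_le_mul_of_nonneg_right _ (by positivity)
          rw [Nat.card_Ico]
          exact_mod_cast (by omega : d - 2 ≤ d)
  have htop : W * κ ^ (d - 2) * M1 ≤ d * (17 * W ^ 2 * q ^ (4 * d) * k ^ (3 * (d - 2)) * M1) := by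
    rw [hκe]
    calc W * (q ^ (d - 2) * k ^ (3 * (d - 2))) * M1 =
          1 * (1 * W * q ^ (d - 2) * k ^ (3 * (d - 2)) * M1) := by ring
      _ ≤ d * (17 * W ^ 2 * q ^ (4 * d) * k ^ (3 * (d - 2)) * M1) := by
          apply mul_le_mul (by linarith) _ (by positivity) (by positivity)
          apply mul_le_mul_of_nonneg_right _ hM1
          apply mul_le_mul_of_nonneg_right _ (by positivity)
          apply mul_le_mul _ (hqe _ (by omega)) (by positivity) (by positivity)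
          exact mul_le_mul (by norm_num) (le_self_pow₀ hW1 (by norm_num)) hW0.le (by norm_num)
  calc 2 ^ (d + 5) * (∑ r ∈ Finset.Ico 2 d, (W * κ ^ (r - 2) * (W * κ ^ (r - 1)) + 4 * B) * M2 +
        W * κ ^ (d - 2) * M1) ≤
      2 ^ (d + 5) * (d * (17 * W ^ 2 * q ^ (4 * d) * k ^ (6 * d - 13) * M2) +
        d * (17 * W ^ 2 * q ^ (4 * d) * k ^ (3 * (d - 2)) * M1)) := by
        apply mul_le_mul_of_nonneg_left _ (by positivity)
        linarith
    _ = _ := by ring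

end Vale.Agent.P054I
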