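import Vale.Agent.P054.MathlibUsed
import Vale.Agent.P054.H239.HSeqC
import Vale.Agent.P054.H239.HFam
import Vale.Agent.P054.H428.LocD
attribute [-instance] ProperSMul.toContinuousSMul IsTopologicalTorsor.toContinuousSMul IdemSemiring.toCanonicallyOrderedAdd IdemSemiring.toMulLeftMono IdemSemiring.toMulRightMono AddQuantale.instAddLeftMono AddQuantale.instAddRightMono Quantale.instMulLeftMono Quantale.instMulRightMono FiniteDimensional.rclike_to_real IsScalarTower.complexToReal FiniteDimensional.complexToReal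

set_option linter.all false
set_option autoImplicit false

open Finset Vale.Agent.P054K Vale.Agent.P054G

namespace Vale.Agent.P054I

/-! ### the recursion with the local lemma `k ^ (3 (d - 2)) M1 + k ^ (6 d - 13) M2`, `d ≥ 4` -/

noncomputable def k2D : ℕ → ℝ := fun d => if d ≤ 3 then 1 else ((d:ℝ) - 1) / (6 * (d:ℝ) - 13)

theorem k2D_pos (d : ℕ) : 0 < k2D d := by
  unfold k2D
  split_ifs with h
  · norm_num
  · push Not at h
    have hD : (4:ℝ) ≤ d := by exact_mod_cast h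
    apply div_pos <;> linarith

theorem k2D_eq (d : ℕ) (hd : 4 ≤ d) : k2D d = ((d:ℝ) - 1) / (6 * (d:ℝ) - 13) := by
  unfold k2D
  rw [if_neg (by omega)]

theorem k2D_mul (d : ℕ) (hd : 4 ≤ d) : ((6 * d - 13 : ℕ) : ℝ) * k2D d ≤ (d:ℝ) - 1 := by
  rw [k2D_eq d hd]
  have hD : (4:ℝ) ≤ d := by exact_mod_cast hd
  have hc : ((6 * d - 13 : ℕ) : ℝ) = 6 * (d:ℝ) - 13 := by
    rw [Nat.cast_sub (by omega)]
    push_cast
    ring
  rw [hc, mul_div_cancel₀]
  have : (0:ℝ) < 6 * (d:ℝ) - 13 := by linarith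
  exact this.ne'

/-- the family version of the step for `d ≥ 4`, with the triangle local lemma -/
theorem sexFamD {Sf : (j : ℕ) → ℕ → Finset (EuclideanSpace ℝ (Fin j)) → Prop} (hSf : Her Sf)
    (hsub : ∀ d t P P', Sf d t P → P' ⊆ P → Sf d t P')
    (hmono : ∀ d t t', t ≤ t' → ∀ P, Sf d t P → Sf d t' P)
    (hPC : ∀ d t P, Sf d t P → PC d t P)
    (hK : ∀ d, 2 ≤ d → ∃ (K : ℝ) (c A : ℕ), 1 ≤ K ∧ KeyX d K c A)
    {d0 : ℕ} {init : ℕ → ℝ} (hd0 : 4 ≤ d0) (hi0 : init 0 = 0)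
    (hi : ∀ d, 1 ≤ d → d < d0 → (d:ℝ) / 2 ≤ init d ∧ init d ≤ fd d)
    (hbase : ∀ d, d < d0 → Sex d (Sf d) (init d)) (d : ℕ) :
    Sex d (Sf d) (bX k1C k2D 12 d0 init d) := by
  refine sexGen hSf hsub hmono (fun d => (k1C_pos d).le) k1C_le (fun d => (k2D_pos d).le)
    (by omega) hi0 hi hbase e1C (fun d => 6 * d - 13) (fun d hd => k1C_mul d (by omega))
    (fun d hd => k2D_mul d (by omega)) ?_ d
  intro d hd
  obtain ⟨K, c, A, hK1, hX⟩ := hK d (by omega)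
  obtain ⟨C, c', hC, hL1⟩ := locGen_tri d (by omega)
  have a1 : e1C d = 3 * (d - 2) := by unfold e1C; rw [if_neg (by omega)]
  obtain ⟨K1, c1, h1, h2⟩ := keyAbs_of (by omega : 2 ≤ d) (fun t P h => hPC d t P h) hK1
    (by omega : 1 ≤ A + 1)
    (keyX_mono (by omega : A ≤ A + 1) hX) hC (by omega : 1 ≤ 3 * (d - 2)) hL1
  rw [a1]
  exact ⟨K1, c1, A + 1, h1, h2⟩

/-- the pinned class from the exponents `u` in the plane and `v` in space -/
theorem sexPC_uvD (hK : ∀ d, 2 ≤ d → ∃ (K : ℝ) (c A : ℕ), 1 ≤ K ∧ KeyX d K c A) {u v : ℝ}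
    (hu : 1 ≤ u) (hu' : u ≤ 5 / 4) (hv : 3 / 2 ≤ v) (hv' : v ≤ 5 / 3)
    (h2 : Sex 2 (PC 2) u) (h3 : Sex 3 (PC 3) v) (d : ℕ) :
    Sex d (PC d) (bX k1C k2D 12 4 (iUV u v) d) := by
  refine sexFamD her_PC (fun d t P P' h hs => h.sub hs) (fun d t t' ht P h => h.mono ht)
    (fun d t P h => h) hK (by norm_num) rfl (iUV_ok hu hu' hv hv') ?_ d
  intro d hd
  interval_cases d
  · exact sex_PC_zero
  · exact sex_PC_one
  · exact h2
  · exact h3

/-- the class of all distances from the exponents `u` in the plane and `v` in space -/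
theorem sexDC_uvD (hK : ∀ d, 2 ≤ d → ∃ (K : ℝ) (c A : ℕ), 1 ≤ K ∧ KeyX d K c A) {u v : ℝ}
    (hu : 1 ≤ u) (hu' : u ≤ 5 / 4) (hv : 3 / 2 ≤ v) (hv' : v ≤ 5 / 3)
    (h2 : Sex 2 (DC 2) u) (h3 : Sex 3 (DC 3) v) (d : ℕ) :
    Sex d (DC d) (bX k1C k2D 12 4 (iUV u v) d) := by
  refine sexFamD her_DC (fun d t P P' h hs => h.sub hs) (fun d t t' ht P h => h.mono ht)
    (fun d t P h => h.toPC) hK (by norm_num) rfl (iUV_ok hu hu' hv hv') ?_ d
  intro d hd
  interval_cases d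
  · exact sex_DC_of_PC sex_PC_zero
  · exact sex_DC_of_PC sex_PC_one
  · exact h2
  · exact h3

end Vale.Agent.P054I
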